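import Vale.Agent.Lib.P130.Morse.Defs3

/-!
# P130 Morse: odd vectors have mean zero
-/

open MeasureTheory Filter Topology
open scoped ENNReal ComplexConjugate

namespace P130

namespace Blk

variable (B : Blk)

private theorem integral_chi_mul (a : ℤˣ) : ∫ u, chi true (a * u) ∂mZ = 0 := by
  have h1 : ∫ u, chi true (a * u) ∂mZ = ∫ u, chi true (a * (-1 * u)) ∂mZ := by
    conv_lhs => rw [← map_mul_mZ (-1)]
    rw [integral_map (by fun_prop)]
    exact (measurable_of_finite _).aestronglyMeasurable
  have h2 : ∀ u : ℤˣ, chi true (a * (-1 * u)) = -chi true (a * u) := by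
    intro u
    unfold chi
    simp
  simp only [h2, integral_neg] at h1
  have h3 : (2 : ℂ) * ∫ u, chi true (a * u) ∂mZ = 0 := by
    linear_combination h1
  exact (mul_eq_zero.1 h3).resolve_left two_ne_zero

private theorem integral_E2 (n i : ℕ) : ∫ y, B.E2 true n i y ∂B.mu2 = 0 := by
  have hint : Integrable (B.E2 true n i) B.mu2 := (B.memLp_E2 true n i).integrable (by norm_num)
  unfold mu2 at hint ⊢
  rw [integral_prod _ hint]
  have h : ∀ x : B.X, ∫ u, B.E2 true n i (x, u) ∂mZ = 0 := by
    intro x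
    unfold E2
    by_cases hx : B.idx n x = i
    · simp only [hx, if_true]
      rw [integral_const_mul, integral_chi_mul, mul_zero]
    · simp only [hx, if_false]
      simp
  simp [h]

private theorem integral_Ho {f : B.H2} (hf : f ∈ B.Ho) : ∫ y, f y ∂B.mu2 = 0 := by
  set c : B.H2 := indicatorConstLp 2 MeasurableSet.univ (measure_ne_top B.mu2 _) (1 : ℂ) with hc
  have hint : ∀ g : B.H2, inner ℂ c g = ∫ y, g y ∂B.mu2 := by
    intro g
    rw [hc, L2.inner_indicatorConstLp_one, Measure.restrict_univ]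
  have hle : B.Ho ≤ (Submodule.span ℂ {c})ᗮ := by
    apply Submodule.topologicalClosure_minimal
    · rw [Submodule.span_le]
      rintro g ⟨n, i, -, rfl⟩
      rw [SetLike.mem_coe, Submodule.mem_orthogonal_singleton_iff_inner_right, hint]
      rw [integral_congr_ae (B.coeFn_e2 true n i)]
      exact B.integral_E2 n i
    · exact Submodule.isClosed_orthogonal _
  have h := hle hf
  rw [Submodule.mem_orthogonal_singleton_iff_inner_right, hint] at h
  exact h

theorem integral_V (V : LT →ₗᵢ[ℂ] B.H2) (hR : ∀ f : B.H2, f ∈ B.Ho ↔ ∃ x, V x = f) (x : LT) :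
    ∫ y, V x y ∂B.mu2 = 0 :=
  B.integral_Ho ((hR (V x)).2 ⟨x, rfl⟩)

end Blk

end P130
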