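import Vale.Agent.Lib.P130.Morse.Hilb2

/-!
# P130 Morse: the span of the level vectors is dense
(same proof as `Lib/P130/Dense.lean`, with the characters `chi κ` of `{1,-1}` instead of
`fourier k`)
-/

open MeasureTheory Filter Topology
open scoped ENNReal ComplexConjugate

namespace P130

namespace Blk

variable (B : Blk)

private theorem D2_chi_mul_chi (κ κ' : Bool) (u : ℤˣ) :
    chi κ u * chi κ' u = chi (xor κ κ') u := by
  unfold chi
  cases κ <;> cases κ' <;> rcases Int.units_eq_one_or u with h | h <;> simp [h]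

private theorem D2_chi_inj {u v : ℤˣ} (h : chi true u = chi true v) : u = v := by
  unfold chi at h
  rw [if_pos rfl, if_pos rfl] at h
  have h1 : (u : ℤ) = (v : ℤ) := by exact_mod_cast h
  exact Units.ext h1

private theorem D2_cont_chi (κ : Bool) : Continuous (chi κ) := continuous_of_discreteTopology

private theorem D2_continuous_F (n i : ℕ) (κ : Bool) :
    Continuous fun y : B.Y2 => (if B.idx n y.1 = i then chi κ y.2 else 0) := by
  have h1 : Continuous fun y : B.Y2 => chi κ y.2 := (D2_cont_chi κ).comp continuous_snd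
  have h2 : Continuous fun y : B.Y2 => B.idx n y.1 := (B.continuous_idx n).comp continuous_fst
  have h3 : Continuous fun y : B.Y2 => (if B.idx n y.1 = i then (1 : ℂ) else 0) :=
    (continuous_of_discreteTopology (f := fun j : ℕ => if j = i then (1 : ℂ) else 0)).comp h2
  refine (h3.mul h1).congr fun y => ?_
  rw [Pi.mul_apply]
  by_cases h : B.idx n y.1 = i
  · rw [if_pos h, if_pos h, one_mul]
  · rw [if_neg h, if_neg h, zero_mul]

/-- products of a level indicator and a character -/
private noncomputable def D2F (n i : ℕ) (κ : Bool) : C(B.Y2, ℂ) := ⟨_, B.D2_continuous_F n i κ⟩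

private theorem D2F_apply (n i : ℕ) (κ : Bool) (y : B.Y2) :
    B.D2F n i κ y = if B.idx n y.1 = i then chi κ y.2 else 0 := rfl

/-- the multiplicative set of all `D2F n i κ` and `0`. -/
private def D2S : Set C(B.Y2, ℂ) := {f | f = 0 ∨ ∃ (n i : ℕ) (κ : Bool), f = B.D2F n i κ}

private theorem D2F_mul_le {n n' : ℕ} (h : n ≤ n') (i i' : ℕ) (κ κ' : Bool) :
    B.D2F n i κ * B.D2F n' i' κ' ∈ B.D2S := by
  by_cases hi : i' % B.M n = i
  · right
    refine ⟨n', i', xor κ κ', ?_⟩
    ext y
    rw [ContinuousMap.mul_apply, D2F_apply, D2F_apply, D2F_apply]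
    by_cases h' : B.idx n' y.1 = i'
    · have h1 : B.idx n y.1 = i := by
        rw [← B.idx_mod h y.1, h', hi]
      rw [if_pos h', if_pos h', if_pos h1, D2_chi_mul_chi]
    · rw [if_neg h', if_neg h', mul_zero]
  · left
    ext y
    rw [ContinuousMap.mul_apply, D2F_apply, D2F_apply, ContinuousMap.zero_apply]
    by_cases h' : B.idx n' y.1 = i'
    · have h1 : ¬ B.idx n y.1 = i := by
        rw [← B.idx_mod h y.1, h']
        exact hi
      rw [if_neg h1, zero_mul]
    · rw [if_neg h', mul_zero]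

private theorem D2S_mul {f g : C(B.Y2, ℂ)} (hf : f ∈ B.D2S) (hg : g ∈ B.D2S) :
    f * g ∈ B.D2S := by
  rcases hf with rfl | ⟨n, i, k, rfl⟩
  · left
    rw [zero_mul]
  rcases hg with rfl | ⟨n', i', k', rfl⟩
  · left
    rw [mul_zero]
  rcases le_total n n' with h | h
  · exact B.D2F_mul_le h i i' k k'
  · rw [mul_comm]
    exact B.D2F_mul_le h i' i k' k

private theorem D2S_star {f : C(B.Y2, ℂ)} (hf : f ∈ B.D2S) : star f ∈ B.D2S := by
  rcases hf with rfl | ⟨n, i, k, rfl⟩
  · left
    rw [star_zero]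
  · right
    refine ⟨n, i, k, ?_⟩
    ext y
    rw [ContinuousMap.star_apply, D2F_apply]
    by_cases h : B.idx n y.1 = i
    · rw [if_pos h]
      exact conj_chi k y.2
    · rw [if_neg h, star_zero]

private theorem D2_one_mem : (1 : C(B.Y2, ℂ)) ∈ B.D2S := by
  right
  refine ⟨0, 0, false, ?_⟩
  ext y
  rw [ContinuousMap.one_apply, D2F_apply, if_pos]
  · rfl
  · have h1 := B.idx_lt 0 y.1
    rw [B.M_zero] at h1
    omega

/-- the star subalgebra spanned by the `D2F n i κ` -/
private noncomputable def D2A : StarSubalgebra ℂ C(B.Y2, ℂ) where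
  carrier := Submodule.span ℂ B.D2S
  mul_mem' := by
    intro f g hf hg
    rw [SetLike.mem_coe] at hf hg ⊢
    induction hf using Submodule.span_induction with
    | mem x hx =>
      induction hg using Submodule.span_induction with
      | mem y hy => exact Submodule.subset_span (B.D2S_mul hx hy)
      | zero =>
        rw [mul_zero]
        exact Submodule.zero_mem _
      | add y z _ _ hy hz =>
        rw [mul_add]
        exact Submodule.add_mem _ hy hz
      | smul c y _ hy =>
        rw [mul_smul_comm]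
        exact Submodule.smul_mem _ c hy
    | zero =>
      rw [zero_mul]
      exact Submodule.zero_mem _
    | add x y _ _ hx hy =>
      rw [add_mul]
      exact Submodule.add_mem _ hx hy
    | smul c x _ hx =>
      rw [smul_mul_assoc]
      exact Submodule.smul_mem _ c hx
  add_mem' := fun hf hg => Submodule.add_mem _ hf hg
  algebraMap_mem' := by
    intro c
    rw [Algebra.algebraMap_eq_smul_one]
    exact Submodule.smul_mem _ c (Submodule.subset_span B.D2_one_mem)
  star_mem' := by
    intro f hf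
    change star f ∈ Submodule.span ℂ B.D2S
    change f ∈ Submodule.span ℂ B.D2S at hf
    induction hf using Submodule.span_induction with
    | mem x hx => exact Submodule.subset_span (B.D2S_star hx)
    | zero =>
      rw [star_zero]
      exact Submodule.zero_mem _
    | add x y _ _ hx hy =>
      rw [star_add]
      exact Submodule.add_mem _ hx hy
    | smul c x _ hx =>
      rw [star_smul]
      exact Submodule.smul_mem _ _ hx

private theorem D2F_mem (n i : ℕ) (κ : Bool) : B.D2F n i κ ∈ B.D2A :=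
  Submodule.subset_span (Or.inr ⟨n, i, κ, rfl⟩)

private theorem D2_separates : (B.D2A).toSubalgebra.SeparatesPoints := by
  intro y y' hyy
  by_cases hx : y.1 = y'.1
  · have ht : y.2 ≠ y'.2 := fun h => hyy (Prod.ext hx h)
    refine ⟨_, ⟨B.D2F 0 0 true, B.D2F_mem 0 0 true, rfl⟩, ?_⟩
    have h1 : ∀ z : B.Y2, B.idx 0 z.1 = 0 := by
      intro z
      have h1 := B.idx_lt 0 z.1
      rw [B.M_zero] at h1
      omega
    change B.D2F 0 0 true y ≠ B.D2F 0 0 true y'
    rw [D2F_apply, D2F_apply, if_pos (h1 y), if_pos (h1 y')]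
    intro h
    exact ht (D2_chi_inj h)
  · have h1 : ∃ n, B.idx n y.1 ≠ B.idx n y'.1 := by
      by_contra hc
      push Not at hc
      exact hx (B.ext_idx hc)
    obtain ⟨n, hn⟩ := h1
    refine ⟨_, ⟨B.D2F n (B.idx n y.1) false, B.D2F_mem _ _ _, rfl⟩, ?_⟩
    change B.D2F n (B.idx n y.1) false y ≠ B.D2F n (B.idx n y.1) false y'
    rw [D2F_apply, D2F_apply, if_pos rfl, if_neg (fun h => hn h.symm)]
    exact one_ne_zero

private theorem D2_closure : (Submodule.span ℂ B.D2S).topologicalClosure = ⊤ := by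
  have h1 := ContinuousMap.starSubalgebra_topologicalClosure_eq_top_of_separatesPoints B.D2A
    B.D2_separates
  rw [eq_top_iff]
  intro f _
  have h2 : f ∈ (B.D2A).topologicalClosure := by
    rw [h1]
    exact StarSubalgebra.mem_top
  exact h2

private theorem D2_continuous_E (κ : Bool) (n i : ℕ) : Continuous (B.E2 κ n i) := by
  have h0 : Continuous fun u : ℤˣ => (Real.sqrt (B.M n) : ℂ) * chi κ ((B.A n i).2 * u) :=
    continuous_of_discreteTopology
  have h1 : Continuous fun y : B.Y2 => (Real.sqrt (B.M n) : ℂ) * chi κ ((B.A n i).2 * y.2) :=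
    h0.comp continuous_snd
  have h2 : Continuous fun y : B.Y2 => B.idx n y.1 := (B.continuous_idx n).comp continuous_fst
  have h3 : Continuous fun y : B.Y2 => (if B.idx n y.1 = i then (1 : ℂ) else 0) :=
    (continuous_of_discreteTopology (f := fun j : ℕ => if j = i then (1 : ℂ) else 0)).comp h2
  refine (h3.mul h1).congr fun y => ?_
  rw [Pi.mul_apply]
  unfold E2
  by_cases h : B.idx n y.1 = i
  · rw [if_pos h, if_pos h, one_mul]
  · rw [if_neg h, if_neg h, zero_mul]

/-- `E2` as a continuous function -/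
private noncomputable def D2E (κ : Bool) (n i : ℕ) : C(B.Y2, ℂ) :=
  ⟨B.E2 κ n i, B.D2_continuous_E κ n i⟩

private theorem D2F_eq_smul (n i : ℕ) (κ : Bool) : ∃ c : ℂ, B.D2F n i κ = c • B.D2E κ n i := by
  have hs : (Real.sqrt (B.M n) : ℂ) ≠ 0 := by
    have h1 : 0 < Real.sqrt (B.M n) := Real.sqrt_pos.2 (by exact_mod_cast B.M_pos n)
    exact_mod_cast h1.ne'
  have hf : chi κ (B.A n i).2 ≠ 0 := by
    rw [← norm_pos_iff, norm_chi]
    exact one_pos
  refine ⟨((Real.sqrt (B.M n) : ℂ) * chi κ (B.A n i).2)⁻¹, ?_⟩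
  ext y
  rw [ContinuousMap.smul_apply, D2F_apply]
  change _ = _ • B.E2 κ n i y
  unfold E2
  by_cases h : B.idx n y.1 = i
  · rw [if_pos h, if_pos h, chi_mul, smul_eq_mul]
    field_simp
  · rw [if_neg h, if_neg h, smul_zero]

private theorem D2_dense_E : (Submodule.span ℂ {f : C(B.Y2, ℂ) | ∃ (κ : Bool) (n i : ℕ),
    i < B.M n ∧ f = B.D2E κ n i}).topologicalClosure = ⊤ := by
  rw [eq_top_iff, ← B.D2_closure]
  refine Submodule.topologicalClosure_mono ?_
  rw [Submodule.span_le]
  rintro f (rfl | ⟨n, i, κ, rfl⟩)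
  · exact Submodule.zero_mem _
  · by_cases hi : i < B.M n
    · obtain ⟨c, h⟩ := B.D2F_eq_smul n i κ
      rw [h]
      exact Submodule.smul_mem _ c (Submodule.subset_span ⟨κ, n, i, hi, rfl⟩)
    · have h0 : B.D2F n i κ = 0 := by
        ext y
        rw [D2F_apply, if_neg, ContinuousMap.zero_apply]
        intro h
        exact hi (h ▸ B.idx_lt n y.1)
      rw [h0]
      exact Submodule.zero_mem _

private theorem D2_toLp (κ : Bool) (n i : ℕ) :
    ContinuousMap.toLp 2 B.mu2 ℂ (B.D2E κ n i) = B.e2 κ n i := by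
  refine Lp.ext ?_
  refine (ContinuousMap.coeFn_toLp B.mu2 (B.D2E κ n i)).trans ?_
  exact (B.coeFn_e2 κ n i).symm

theorem dense_e2 : (Submodule.span ℂ {f : B.H2 | ∃ (κ : Bool) (n i : ℕ), i < B.M n ∧
    f = B.e2 κ n i}).topologicalClosure = ⊤ := by
  have hd : DenseRange (ContinuousMap.toLp 2 B.mu2 ℂ : C(B.Y2, ℂ) →L[ℂ] B.H2) :=
    ContinuousMap.toLp_denseRange ℂ B.mu2 ℂ (by norm_num)
  have h1 : Dense ((Submodule.span ℂ {f : C(B.Y2, ℂ) | ∃ (κ : Bool) (n i : ℕ), i < B.M n ∧
      f = B.D2E κ n i} : Submodule ℂ C(B.Y2, ℂ)) : Set C(B.Y2, ℂ)) :=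
    Submodule.dense_iff_topologicalClosure_eq_top.2 B.D2_dense_E
  have h2 := hd.dense_image (ContinuousMap.toLp 2 B.mu2 ℂ : C(B.Y2, ℂ) →L[ℂ] B.H2).continuous h1
  rw [← Submodule.dense_iff_topologicalClosure_eq_top]
  refine h2.mono ?_
  rintro _ ⟨f, hf, rfl⟩
  rw [SetLike.mem_coe] at hf ⊢
  induction hf using Submodule.span_induction with
  | mem x hx =>
    obtain ⟨κ, n, i, hi, rfl⟩ := hx
    exact Submodule.subset_span ⟨κ, n, i, hi, B.D2_toLp κ n i⟩
  | zero =>
    rw [map_zero]
    exact Submodule.zero_mem _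
  | add x y _ _ hx hy =>
    rw [map_add]
    exact Submodule.add_mem _ hx hy
  | smul c x _ hx =>
    rw [map_smul]
    exact Submodule.smul_mem _ c hx

end Blk

end P130
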