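import Vale.Agent.Lib.P130.Morse.Eig
import Vale.Agent.Lib.P130.Morse.Dense2

/-!
# P130 Morse: completeness
-/

open MeasureTheory Filter Topology
open scoped ENNReal ComplexConjugate

namespace P130

namespace Blk

variable (B : Blk)

/-- the range of `V` and the eigenfunctions span `L²` -/
theorem eq_zero_of_orth2 (V : LT →ₗᵢ[ℂ] B.H2) (hR : ∀ f : B.H2, f ∈ B.Ho ↔ ∃ x, V x = f)
    (f : B.H2) (h1 : ∀ x, (inner ℂ (V x) f : ℂ) = 0)
    (h2 : ∀ (c : ℂ) (φ : B.H2), B.U2 φ = c • φ → (inner ℂ φ f : ℂ) = 0) : f = 0 := by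
  have hmem : ∀ g : B.H2, g ∈ (Submodule.span ℂ {f})ᗮ ↔ (inner ℂ g f : ℂ) = 0 := fun g =>
    Submodule.mem_orthogonal_singleton_iff_inner_left
  have hev : ∀ n i, i < B.M n → B.e2 false n i ∈ (Submodule.span ℂ {f})ᗮ := by
    intro n i hi
    have h4 : Submodule.span ℂ {f | ∃ k : ℕ, k < B.M n ∧ f = B.ef n k} ≤
        (Submodule.span ℂ {f})ᗮ := by
      rw [Submodule.span_le]
      rintro g ⟨k, -, rfl⟩
      exact (hmem _).2 (h2 (B.ev n k) (B.ef n k) (B.U2_ef n k))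
    exact h4 (B.e2_mem_span_ef n i hi)
  have hodd : ∀ n i, i < B.M n → B.e2 true n i ∈ (Submodule.span ℂ {f})ᗮ := by
    intro n i hi
    have h3 : B.e2 true n i ∈ B.Ho :=
      Submodule.le_topologicalClosure _ (Submodule.subset_span ⟨n, i, hi, rfl⟩)
    obtain ⟨x, hx⟩ := (hR _).1 h3
    rw [hmem, ← hx]
    exact h1 x
  have htop : (⊤ : Submodule ℂ B.H2) ≤ (Submodule.span ℂ {f})ᗮ := by
    rw [← B.dense_e2]
    refine Submodule.topologicalClosure_minimal _ ?_ (Submodule.isClosed_orthogonal _)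
    rw [Submodule.span_le]
    rintro g ⟨κ, n, i, hi, rfl⟩
    cases κ
    · exact hev n i hi
    · exact hodd n i hi
  have h5 : (inner ℂ f f : ℂ) = 0 := (hmem f).1 (htop Submodule.mem_top)
  exact inner_self_eq_zero.1 h5

end Blk

end P130
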