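import Vale.Agent.Lib.P130.CocMeas
import Vale.Agent.Lib.P130.MulF
import Vale.Agent.Lib.P130.Limit

/-!
# P130 Morse: the two-point extension of an odometer (Morse cocycle)

Only the second component (in `ℤˣ`) of the cocycle `B.psi` is used.
-/

open MeasureTheory Filter Topology
open scoped ENNReal ComplexConjugate

namespace P130

namespace Blk

variable (B : Blk)

/-- phase space of the two-point extension -/
abbrev Y2 : Type := B.X × ℤˣ

/-- uniform probability on `{1, -1}` -/
noncomputable def mZ : Measure ℤˣ := (2⁻¹ : ℝ≥0∞) • Measure.count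

/-- the measure -/
noncomputable def mu2 : Measure B.Y2 := B.muX.prod mZ

/-- the transformation -/
noncomputable def T2 (y : B.Y2) : B.Y2 := (y.1 - B.one, (B.psi y.1).2 * y.2)

/-- its inverse -/
noncomputable def T2inv (y : B.Y2) : B.Y2 := (y.1 + B.one, (B.psi (y.1 + B.one)).2 * y.2)

/-- the two characters of `{1, -1}`: `κ = true` the sign, `κ = false` the trivial one -/
noncomputable def chi (κ : Bool) (u : ℤˣ) : ℂ := if κ then ((u : ℤ) : ℂ) else 1

/-- the function `√M_n χ_κ` on level `i` of tower `n` -/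
noncomputable def E2 (κ : Bool) (n i : ℕ) (y : B.Y2) : ℂ :=
  if B.idx n y.1 = i then (Real.sqrt (B.M n) : ℂ) * chi κ ((B.A n i).2 * y.2) else 0

/-- coefficients of the refinement -/
noncomputable def cf (κ : Bool) (n j : ℕ) : ℂ := chi κ (B.s n j) / (Real.sqrt (B.m n) : ℂ)

end Blk

/-- the trigonometric polynomial `∑_{j < N} b_j e(j t)` -/
noncomputable def PT (N : ℕ) (b : ℕ → ℤˣ) (t : 𝕋) : ℂ :=
  ∑ j ∈ Finset.range N, ((b j : ℤ) : ℂ) * fourier (j : ℤ) t

/-- existence of `L¹`-flat Littlewood polynomials (the theorem of P110) -/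
def FlatHyp : Prop := ∀ ε : ℝ, 0 < ε → ∃ (N : ℕ) (b : ℕ → ℤˣ), 2 ≤ N ∧
  ∫ t, |‖PT N b t‖ ^ 2 / N - 1| ∂mT ≤ ε

end P130
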