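import Vale.Agent.Lib.P130.Morse.Hilb2

/-!
# P130 Morse: definitions of the Riesz products, the eigenfunctions, the odd part
-/

open MeasureTheory Filter Topology
open scoped ENNReal ComplexConjugate

namespace P130

namespace Blk

variable (B : Blk)

/-- `|P_n(M_n t)|² / m_n` -/
noncomputable def Qf (n : ℕ) (t : 𝕋) : ℝ := ‖PT (B.m n) (B.s n) (B.M n • t)‖ ^ 2 / B.m n

/-- the partial products from `n` on, `k` factors -/
noncomputable def Rf (n k : ℕ) (t : 𝕋) : ℝ := ∏ i ∈ Finset.range k, B.Qf (n + i) t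

/-- the error of block `n` -/
noncomputable def er (n : ℕ) : ℝ := ∫ t, |‖PT (B.m n) (B.s n) t‖ ^ 2 / B.m n - 1| ∂mT

/-- the eigenfunction `y ↦ exp(- 2 π i k idx_n(y) / M_n)` -/
noncomputable def ef (n k : ℕ) : B.H2 := ∑ i ∈ Finset.range (B.M n),
  (Complex.exp (-(2 * Real.pi * Complex.I * k * i / B.M n)) / (Real.sqrt (B.M n) : ℂ)) •
    B.e2 false n i

/-- the eigenvalue -/
noncomputable def ev (n k : ℕ) : ℂ := Complex.exp (2 * Real.pi * Complex.I * k / B.M n)

/-- closed span of the odd level vectors -/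
noncomputable def Ho : Submodule ℂ B.H2 := (Submodule.span ℂ {f : B.H2 | ∃ (n i : ℕ),
  i < B.M n ∧ f = B.e2 true n i}).topologicalClosure

end Blk

end P130
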