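import Vale.Agent.Lib.P130.Morse.Hilb2

/-!
# P130 Morse: shift of the level vectors
-/

open MeasureTheory Filter Topology
open scoped ENNReal ComplexConjugate

namespace P130

namespace Blk

variable (B : Blk)

/-- pointwise shift -/
private theorem E2_T2 (κ : Bool) (n i : ℕ) (hi : i + 1 < B.M n) (y : B.Y2) :
    B.E2 κ n i (B.T2 y) = B.E2 κ n (i + 1) y := by
  obtain ⟨x, t⟩ := y
  have hT : B.T2 (x, t) = (x - B.one, (B.psi x).2 * t) := rfl
  have hM := B.idx_lt n x
  unfold E2
  rw [hT]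
  by_cases h0 : B.idx n x = 0
  · have h1 := B.idx_sub_one_zero n x h0
    rw [if_neg, if_neg]
    · change ¬ (B.idx n x = i + 1)
      omega
    · change ¬ (B.idx n (x - B.one) = i)
      omega
  · have h1 := B.idx_sub_one n x h0
    by_cases h2 : B.idx n x = i + 1
    · have h3 : B.idx n (x - B.one) = i := by omega
      rw [if_pos h3, if_pos h2]
      congr 2
      change (B.A n i).2 * ((B.psi x).2 * t) = (B.A n (i + 1)).2 * t
      rw [B.psi_eq n x h0, h2, Nat.add_sub_cancel]
      change (B.A n i).2 * ((B.A n i).2 * (B.A n (i + 1)).2 * t) = (B.A n (i + 1)).2 * t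
      rw [mul_assoc (B.A n i).2, ← mul_assoc (B.A n i).2, Int.units_mul_self, one_mul]
    · rw [if_neg, if_neg]
      · exact h2
      · change ¬ (B.idx n (x - B.one) = i)
        omega

/-- `U` moves up one level (use `psi_eq`, `idx_sub_one`, `idx_sub_one_zero` at the points
`y.1 - one`) -/
theorem U2_e2 (κ : Bool) (n i : ℕ) (hi : i + 1 < B.M n) :
    B.U2 (B.e2 κ n i) = B.e2 κ n (i + 1) := by
  apply Lp.ext
  have h1 := B.coeFn_U2 (B.e2 κ n i)
  have h2 : (fun y => (B.e2 κ n i : B.Y2 → ℂ) (B.T2 y)) =ᵐ[B.mu2]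
      fun y => B.E2 κ n i (B.T2 y) :=
    (B.measurePreserving_T2.quasiMeasurePreserving).ae_eq_comp (B.coeFn_e2 κ n i)
  have h3 := B.coeFn_e2 κ n (i + 1)
  filter_upwards [h1, h2, h3] with y e1 e2 e3
  rw [e1, e2, e3, B.E2_T2 κ n i hi y]

end Blk

end P130
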