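import Vale.Agent.Lib.P130.Morse.Hilb2

/-!
# P130 Morse: refinement of the level vectors
-/

open MeasureTheory Filter Topology
open scoped ENNReal ComplexConjugate

namespace P130

namespace Blk

variable (B : Blk)

private theorem VecC_chi_sq (κ : Bool) (u : ℤˣ) : chi κ u * chi κ u = 1 := by
  rw [← chi_mul, Int.units_mul_self]
  unfold chi
  cases κ
  · simp
  · simp

private theorem VecC_idx (n i j : ℕ) (hi : i < B.M n) (x : B.X) :
    B.idx (n + 1) x = i + j * B.M n ↔ B.idx n x = i ∧ B.idx (n + 1) x / B.M n = j := by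
  have hM := B.M_pos n
  have hmod := B.idx_succ_mod n x
  constructor
  · intro h
    constructor
    · rw [← hmod, h, Nat.add_mul_mod_self_right, Nat.mod_eq_of_lt hi]
    · rw [h, Nat.add_mul_div_right _ _ hM, Nat.div_eq_of_lt hi, zero_add]
  · rintro ⟨h1, h2⟩
    rw [← h2, ← h1, ← hmod, mul_comm]
    exact (Nat.mod_add_div _ _).symm

private theorem VecC_A (n i j : ℕ) (hi : i < B.M n) :
    (B.A (n + 1) (i + j * B.M n)).2 = (B.A n i).2 * B.s n j := by
  have hM := B.M_pos n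
  rw [B.A_succ, Nat.add_mul_mod_self_right, Nat.mod_eq_of_lt hi, Nat.add_mul_div_right _ _ hM,
    Nat.div_eq_of_lt hi, zero_add]
  rfl

private theorem VecC_sqrt (n : ℕ) :
    (Real.sqrt (B.M (n + 1)) : ℂ) = (Real.sqrt (B.M n) : ℂ) * (Real.sqrt (B.m n) : ℂ) := by
  rw [B.M_succ, Nat.cast_mul, Real.sqrt_mul (Nat.cast_nonneg _), Complex.ofReal_mul]

private theorem VecC_point (κ : Bool) (n i : ℕ) (hi : i < B.M n) (y : B.Y2) :
    B.E2 κ n i y = ∑ j ∈ Finset.range (B.m n), B.cf κ n j * B.E2 κ (n + 1) (i + j * B.M n) y := by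
  have hM := B.M_pos n
  have hm : (Real.sqrt (B.m n) : ℂ) ≠ 0 := by
    rw [Ne, Complex.ofReal_eq_zero]
    exact (Real.sqrt_pos.2 (Nat.cast_pos.2 (B.m_pos n))).ne'
  have hq : B.idx (n + 1) y.1 / B.M n < B.m n := by
    apply Nat.div_lt_of_lt_mul
    rw [← B.M_succ]
    exact B.idx_lt (n + 1) y.1
  by_cases h : B.idx n y.1 = i
  · rw [Finset.sum_eq_single (B.idx (n + 1) y.1 / B.M n)]
    · have h1 : B.idx (n + 1) y.1 = i + B.idx (n + 1) y.1 / B.M n * B.M n :=
        (B.VecC_idx n i _ hi y.1).2 ⟨h, rfl⟩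
      unfold E2 cf
      rw [if_pos h, if_pos h1, B.VecC_A n i _ hi, B.VecC_sqrt n, chi_mul, chi_mul, chi_mul]
      have h2 := VecC_chi_sq κ (B.s n (B.idx (n + 1) y.1 / B.M n))
      field_simp
      linear_combination (-1 : ℂ) * ((Real.sqrt (B.M n) : ℂ) * chi κ (B.A n i).2 * chi κ y.2) * h2
    · intro j _ hj
      unfold E2
      rw [if_neg, mul_zero]
      intro h1
      exact hj ((B.VecC_idx n i j hi y.1).1 h1).2.symm
    · intro h1
      exact absurd (Finset.mem_range.2 hq) h1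
  · rw [Finset.sum_eq_zero]
    · unfold E2
      rw [if_neg h]
    · intro j _
      unfold E2
      rw [if_neg, mul_zero]
      intro h1
      exact h ((B.VecC_idx n i j hi y.1).1 h1).1

private theorem VecC_sum (S : Finset ℕ) (F : ℕ → B.H2) :
    ((∑ j ∈ S, F j : B.H2) : B.Y2 → ℂ) =ᵐ[B.mu2] fun y => ∑ j ∈ S, F j y := by
  classical
  induction S using Finset.induction_on with
  | empty =>
    rw [Finset.sum_empty]
    filter_upwards [Lp.coeFn_zero ℂ 2 B.mu2] with y hy
    rw [hy, Finset.sum_empty]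
    rfl
  | insert a S ha ih =>
    rw [Finset.sum_insert ha]
    filter_upwards [Lp.coeFn_add (F a) (∑ j ∈ S, F j), ih] with y h1 h2
    rw [h1, Pi.add_apply, h2, Finset.sum_insert ha]

/-- refinement: level `i` of tower `n` is the union of the levels `i + j M_n` of tower `n + 1`
(use `idx_succ_mod`, `A_succ`) -/
theorem e2_refine (κ : Bool) (n i : ℕ) (hi : i < B.M n) :
    B.e2 κ n i = ∑ j ∈ Finset.range (B.m n), B.cf κ n j • B.e2 κ (n + 1) (i + j * B.M n) := by
  apply Lp.ext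
  have h1 := B.VecC_sum (Finset.range (B.m n))
    (fun j => B.cf κ n j • B.e2 κ (n + 1) (i + j * B.M n))
  have h2 : ∀ᵐ y ∂B.mu2, ∀ j ∈ Finset.range (B.m n),
      (B.cf κ n j • B.e2 κ (n + 1) (i + j * B.M n) : B.H2) y =
        B.cf κ n j * B.E2 κ (n + 1) (i + j * B.M n) y := by
    rw [Filter.eventually_all_finset]
    intro j _
    filter_upwards [Lp.coeFn_smul (B.cf κ n j) (B.e2 κ (n + 1) (i + j * B.M n)),
      B.coeFn_e2 κ (n + 1) (i + j * B.M n)] with y h3 h4
    rw [h3, Pi.smul_apply, h4, smul_eq_mul]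
  filter_upwards [B.coeFn_e2 κ n i, h1, h2] with y h3 h4 h5
  rw [h3, h4, B.VecC_point κ n i hi y]
  exact (Finset.sum_congr rfl fun j hj => h5 j hj).symm

end Blk

end P130
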