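import Vale.Agent.Lib.P130.Morse.Defs3
import Vale.Agent.Lib.P130.Morse.Vec

/-!
# P130 Morse: Fourier inversion on Z/M_n
-/

open MeasureTheory Filter Topology
open scoped ENNReal ComplexConjugate

namespace P130

namespace Blk

variable (B : Blk)

private theorem EigB_orth (M i j : ℕ) (hM : 0 < M) (hi : i < M) (hj : j < M) :
    ∑ k ∈ Finset.range M, (Complex.exp (2 * Real.pi * Complex.I * k * i / M) /
      (Real.sqrt M : ℂ)) * (Complex.exp (-(2 * Real.pi * Complex.I * k * j / M)) /
      (Real.sqrt M : ℂ)) = if j = i then 1 else 0 := by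
  have hM0 : (M : ℂ) ≠ 0 := by exact_mod_cast hM.ne'
  have hs : (Real.sqrt M : ℂ) * (Real.sqrt M : ℂ) = (M : ℂ) := by
    rw [← Complex.ofReal_mul, Real.mul_self_sqrt (Nat.cast_nonneg M)]
    simp
  have hp := Complex.isPrimitiveRoot_exp M hM.ne'
  let ω : ℂ := Complex.exp (2 * Real.pi * Complex.I / M)
  have hω : IsPrimitiveRoot ω M := hp
  have hω0 : ω ≠ 0 := Complex.exp_ne_zero _
  have key : ∀ k : ℕ, (Complex.exp (2 * Real.pi * Complex.I * k * i / M) /
      (Real.sqrt M : ℂ)) * (Complex.exp (-(2 * Real.pi * Complex.I * k * j / M)) /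
      (Real.sqrt M : ℂ)) = (ω ^ i * (ω ^ j)⁻¹) ^ k / M := by
    intro k
    have h1 : Complex.exp (2 * Real.pi * Complex.I * k * i / M) = (ω ^ i) ^ k := by
      rw [← pow_mul]
      change _ = Complex.exp (2 * Real.pi * Complex.I / M) ^ (i * k)
      rw [← Complex.exp_nat_mul]
      congr 1
      push_cast
      ring
    have h2 : Complex.exp (-(2 * Real.pi * Complex.I * k * j / M)) = ((ω ^ j)⁻¹) ^ k := by
      rw [Complex.exp_neg, inv_pow, ← pow_mul]
      change _ = (Complex.exp (2 * Real.pi * Complex.I / M) ^ (j * k))⁻¹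
      rw [← Complex.exp_nat_mul]
      congr 2
      push_cast
      ring
    rw [h1, h2, mul_pow, div_mul_div_comm, hs]
  rw [Finset.sum_congr rfl fun k _ => key k, ← Finset.sum_div]
  by_cases h : j = i
  · subst h
    rw [if_pos rfl, mul_inv_cancel₀ (pow_ne_zero _ hω0)]
    simp [hM0]
  · rw [if_neg h]
    have hz : ω ^ i * (ω ^ j)⁻¹ ≠ 1 := by
      intro h1
      have h2 : ω ^ i = ω ^ j := by
        have h3 := congrArg (fun x : ℂ => x * ω ^ j) h1
        simpa [mul_assoc, inv_mul_cancel₀ (pow_ne_zero j hω0)] using h3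
      exact h (hω.pow_inj hj hi h2.symm)
    have hzM : (ω ^ i * (ω ^ j)⁻¹) ^ M = 1 := by
      rw [mul_pow, inv_pow, ← pow_mul, ← pow_mul, mul_comm i M, mul_comm j M, pow_mul, pow_mul,
        hω.pow_eq_one, one_pow, one_pow, inv_one, mul_one]
    have h4 := mul_geom_sum (ω ^ i * (ω ^ j)⁻¹) M
    rw [hzM, sub_self] at h4
    rcases mul_eq_zero.mp h4 with h5 | h5
    · exact absurd (sub_eq_zero.mp h5) hz
    · rw [h5, zero_div]

/-- Fourier inversion on `ℤ / M_n` -/
theorem e2_mem_span_ef (n i : ℕ) (hi : i < B.M n) :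
    B.e2 false n i ∈ Submodule.span ℂ {f | ∃ k : ℕ, k < B.M n ∧ f = B.ef n k} := by
  have h1 : B.e2 false n i = ∑ k ∈ Finset.range (B.M n),
      (Complex.exp (2 * Real.pi * Complex.I * k * i / B.M n) / (Real.sqrt (B.M n) : ℂ)) •
        B.ef n k := by
    have h2 : ∀ k ∈ Finset.range (B.M n),
        (Complex.exp (2 * Real.pi * Complex.I * k * i / B.M n) / (Real.sqrt (B.M n) : ℂ)) •
          B.ef n k = ∑ j ∈ Finset.range (B.M n),
          ((Complex.exp (2 * Real.pi * Complex.I * k * i / B.M n) / (Real.sqrt (B.M n) : ℂ)) *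
            (Complex.exp (-(2 * Real.pi * Complex.I * k * j / B.M n)) /
              (Real.sqrt (B.M n) : ℂ))) • B.e2 false n j := by
      intro k _
      unfold ef
      rw [Finset.smul_sum]
      exact Finset.sum_congr rfl fun j _ => smul_smul _ _ _
    rw [Finset.sum_congr rfl h2, Finset.sum_comm]
    have h3 : ∀ j ∈ Finset.range (B.M n), (∑ k ∈ Finset.range (B.M n),
        ((Complex.exp (2 * Real.pi * Complex.I * k * i / B.M n) / (Real.sqrt (B.M n) : ℂ)) *
          (Complex.exp (-(2 * Real.pi * Complex.I * k * j / B.M n)) /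
            (Real.sqrt (B.M n) : ℂ))) • B.e2 false n j) =
        (if j = i then (1 : ℂ) else 0) • B.e2 false n j := by
      intro j hj
      rw [← Finset.sum_smul, EigB_orth (B.M n) i j (B.M_pos n) hi (Finset.mem_range.mp hj)]
    rw [Finset.sum_congr rfl h3]
    simp only [ite_smul, one_smul, zero_smul]
    rw [Finset.sum_ite_eq' (Finset.range (B.M n)) i, if_pos (Finset.mem_range.mpr hi)]
  rw [h1]
  refine Submodule.sum_mem _ fun k hk => Submodule.smul_mem _ _ ?_
  exact Submodule.subset_span ⟨k, Finset.mem_range.mp hk, rfl⟩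

end Blk

end P130
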