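import Vale.Agent.Lib.P130.Morse.Defs3
import Vale.Agent.Lib.P130.Morse.Vec

/-!
# P130 Morse: norms and uniqueness of eigenfunctions
-/

open MeasureTheory Filter Topology
open scoped ENNReal ComplexConjugate

namespace P130

namespace Blk

variable (B : Blk)

private theorem eigc_sum (n : ℕ) (c : ℕ → ℂ) (s : Finset ℕ) :
    ((∑ i ∈ s, c i • B.e2 false n i : B.H2) : B.Y2 → ℂ) =ᵐ[B.mu2]
      fun y => ∑ i ∈ s, c i * B.E2 false n i y := by
  classical
  induction s using Finset.induction_on with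
  | empty =>
    simp only [Finset.sum_empty]
    exact Lp.coeFn_zero ℂ 2 B.mu2
  | insert a s ha ih =>
    rw [Finset.sum_insert ha]
    filter_upwards [ih, Lp.coeFn_add (c a • B.e2 false n a) (∑ i ∈ s, c i • B.e2 false n i),
      Lp.coeFn_smul (c a) (B.e2 false n a), B.coeFn_e2 false n a] with y h1 h2 h3 h4
    rw [h2, Pi.add_apply, h1, h3, Pi.smul_apply, h4, Finset.sum_insert ha, smul_eq_mul]

private theorem eigc_coeFn (n k : ℕ) : (B.ef n k : B.Y2 → ℂ) =ᵐ[B.mu2]
    fun y => (B.ev n k ^ B.idx n y.1)⁻¹ := by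
  have h := B.eigc_sum n (fun i => Complex.exp (-(2 * Real.pi * Complex.I * k * i / B.M n)) /
    (Real.sqrt (B.M n) : ℂ)) (Finset.range (B.M n))
  filter_upwards [h] with y hy
  have h1 : (B.ef n k : B.Y2 → ℂ) y = ∑ i ∈ Finset.range (B.M n),
      (Complex.exp (-(2 * Real.pi * Complex.I * k * i / B.M n)) /
        (Real.sqrt (B.M n) : ℂ)) * B.E2 false n i y := hy
  rw [h1, Finset.sum_eq_single (B.idx n y.1)]
  · have hM : (Real.sqrt (B.M n) : ℂ) ≠ 0 := by
      rw [Ne, Complex.ofReal_eq_zero, Real.sqrt_eq_zero (Nat.cast_nonneg _), Nat.cast_eq_zero]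
      exact (B.M_pos n).ne'
    unfold E2 chi ev
    rw [if_pos rfl]
    simp only [Bool.false_eq_true, if_false, mul_one]
    rw [div_mul_cancel₀ _ hM, ← Complex.exp_nat_mul, ← Complex.exp_neg]
    congr 1
    ring
  · intro b _ hb
    unfold E2
    rw [if_neg (fun hh => hb hh.symm), mul_zero]
  · intro hh
    exact absurd (Finset.mem_range.mpr (B.idx_lt n y.1)) hh

private theorem eigc_norm_ev (n k : ℕ) : ‖B.ev n k‖ = 1 := by
  unfold ev
  rw [show 2 * (Real.pi : ℂ) * Complex.I * k / B.M n =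
    ((2 * Real.pi * k / B.M n : ℝ) : ℂ) * Complex.I by push_cast; ring,
    Complex.norm_exp_ofReal_mul_I]

private theorem eigc_ev_pow (n k : ℕ) : B.ev n k ^ B.M n = 1 := by
  have hM : (B.M n : ℂ) ≠ 0 := Nat.cast_ne_zero.mpr (B.M_pos n).ne'
  unfold ev
  rw [← Complex.exp_nat_mul, show (B.M n : ℂ) * (2 * Real.pi * Complex.I * k / B.M n) =
    k * (2 * Real.pi * Complex.I) by field_simp]
  exact Complex.exp_nat_mul_two_pi_mul_I k

theorem norm_ef (n k : ℕ) : ‖B.ef n k‖ = 1 := by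
  have h1 : (inner ℂ (B.ef n k) (B.ef n k) : ℂ) = 1 := by
    rw [L2.inner_def]
    have h2 : ∀ᵐ y ∂B.mu2, (inner ℂ (B.ef n k y) (B.ef n k y) : ℂ) = 1 := by
      filter_upwards [B.eigc_coeFn n k] with y hy
      rw [hy, inner_self_eq_norm_sq_to_K, norm_inv, norm_pow, B.eigc_norm_ev, one_pow, inv_one]
      simp
    rw [integral_congr_ae h2, integral_const]
    simp
  rw [inner_self_eq_norm_sq_to_K] at h1
  have h3 : ‖B.ef n k‖ ^ 2 = 1 := by
    have h4 : ((‖B.ef n k‖ ^ 2 : ℝ) : ℂ) = ((1 : ℝ) : ℂ) := by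
      rw [Complex.ofReal_pow, Complex.ofReal_one]
      exact h1
    exact Complex.ofReal_injective h4
  nlinarith [norm_nonneg (B.ef n k)]

private theorem eigc_aux {n n' : ℕ} (hn : n ≤ n') (k k' : ℕ) (h : B.ev n k = B.ev n' k') :
    B.ef n k = B.ef n' k' := by
  refine Lp.ext ?_
  filter_upwards [B.eigc_coeFn n k, B.eigc_coeFn n' k'] with y h1 h2
  rw [h1, h2, ← h, pow_eq_pow_mod (B.idx n' y.1) (B.eigc_ev_pow n k), B.idx_mod hn]

/-- eigenfunctions with the same eigenvalue are equal -/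
theorem ef_eq_of_ev (n k n' k' : ℕ) (h : B.ev n k = B.ev n' k') : B.ef n k = B.ef n' k' := by
  rcases le_total n n' with hn | hn
  · exact B.eigc_aux hn k k' h
  · exact (B.eigc_aux hn k' k h.symm).symm

end Blk

end P130
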