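import Vale.Agent.Lib.P130.Morse.Defs3
import Vale.Agent.Lib.P130.Morse.Vec

/-!
# P130 Morse: eigenfunctions, equation
-/

open MeasureTheory Filter Topology
open scoped ENNReal ComplexConjugate

namespace P130

namespace Blk

variable (B : Blk)

private theorem eigA_E2_last (n : ℕ) (y : B.Y2) :
    B.E2 false n (B.M n - 1) (B.T2 y) = B.E2 false n 0 y := by
  have hM := B.M_pos n
  have h1 : (B.T2 y).1 = y.1 - B.one := rfl
  unfold E2
  rw [h1]
  by_cases h : B.idx n y.1 = 0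
  · rw [B.idx_sub_one_zero n y.1 h, if_pos rfl, if_pos h]
    rfl
  · have h2 := B.idx_sub_one n y.1 h
    have h3 := B.idx_lt n y.1
    rw [if_neg (by rw [h2]; omega), if_neg h]

/-- even level vectors: `U` acts as a cyclic shift -/
theorem U2_e2_last (n : ℕ) : B.U2 (B.e2 false n (B.M n - 1)) = B.e2 false n 0 := by
  apply Lp.ext
  have h1 := B.coeFn_U2 (B.e2 false n (B.M n - 1))
  have h2 := B.measurePreserving_T2.quasiMeasurePreserving.ae_eq_comp
    (B.coeFn_e2 false n (B.M n - 1))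
  filter_upwards [h1, h2, B.coeFn_e2 false n 0] with y g1 g2 g3
  rw [g1, g3]
  have g4 : (B.e2 false n (B.M n - 1) : B.Y2 → ℂ) (B.T2 y) = B.E2 false n (B.M n - 1) (B.T2 y) := g2
  rw [g4]
  exact B.eigA_E2_last n y

private theorem eigA_coef (k i M : ℕ) (hM : 0 < M) (c : ℂ) :
    Complex.exp (2 * Real.pi * Complex.I * k / M) *
      (Complex.exp (-(2 * Real.pi * Complex.I * k * ((i + 1 : ℕ) : ℂ) / M)) / c) =
      Complex.exp (-(2 * Real.pi * Complex.I * k * i / M)) / c := by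
  have hM' : (M : ℂ) ≠ 0 := by exact_mod_cast hM.ne'
  rw [← mul_div_assoc, ← Complex.exp_add]
  congr 2
  push_cast
  field_simp
  ring

private theorem eigA_coef_last (k N : ℕ) (c : ℂ) :
    Complex.exp (2 * Real.pi * Complex.I * k / ((N + 1 : ℕ) : ℂ)) *
      (Complex.exp (-(2 * Real.pi * Complex.I * k * ((0 : ℕ) : ℂ) / ((N + 1 : ℕ) : ℂ))) / c) =
      Complex.exp (-(2 * Real.pi * Complex.I * k * N / ((N + 1 : ℕ) : ℂ))) / c := by
  have hM' : ((N + 1 : ℕ) : ℂ) ≠ 0 := by exact_mod_cast Nat.succ_ne_zero N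
  rw [← mul_div_assoc, ← Complex.exp_add]
  congr 1
  rw [Complex.exp_eq_exp_iff_exists_int]
  refine ⟨k, ?_⟩
  push_cast at hM' ⊢
  field_simp
  ring

theorem U2_ef (n k : ℕ) : B.U2 (B.ef n k) = B.ev n k • B.ef n k := by
  obtain ⟨N, hN⟩ : ∃ N, B.M n = N + 1 := ⟨B.M n - 1, by have := B.M_pos n; omega⟩
  have hlast := B.U2_e2_last n
  unfold ef ev
  rw [map_sum, Finset.smul_sum]
  simp only [map_smul, smul_smul]
  rw [hN] at hlast ⊢
  rw [Finset.sum_range_succ, Finset.sum_range_succ' (fun i => (Complex.exp _ * _) • B.e2 false n i)]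
  have h1 : ∀ i ∈ Finset.range N, (Complex.exp (-(2 * Real.pi * Complex.I * k * i /
      ((N + 1 : ℕ) : ℂ))) / (Real.sqrt ((N + 1 : ℕ) : ℝ) : ℂ)) • B.U2 (B.e2 false n i) =
      (Complex.exp (2 * Real.pi * Complex.I * k / ((N + 1 : ℕ) : ℂ)) *
      (Complex.exp (-(2 * Real.pi * Complex.I * k * ((i + 1 : ℕ) : ℂ) / ((N + 1 : ℕ) : ℂ))) /
        (Real.sqrt ((N + 1 : ℕ) : ℝ) : ℂ))) • B.e2 false n (i + 1) := by
    intro i hi
    rw [Finset.mem_range] at hi
    rw [eigA_coef k i (N + 1) (Nat.succ_pos N), B.U2_e2 false n i (by omega)]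
  rw [Finset.sum_congr rfl h1]
  congr 1
  rw [eigA_coef_last k N]
  congr 1

end Blk

end P130
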