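import Vale.Agent.Lib.P130.Morse.Compl
import Vale.Agent.Lib.P130.RL

/-!
# P130 Morse: ergodicity

For an invariant `f ∈ L²`: `⟨V x, f⟩` : `⟨V (mulF 1 x), f⟩ = ⟨V x, f⟩`, so `V* f` is invariant under
`mulF`, hence `0`; `⟨e2 false n i, f⟩` does not depend on `i < M_n` (`U2_e2`); so `f - ∫ f` is orthogonal
to all level vectors (`dense_e2`).  See `ergodic_T` in `Lib/P130/Erg.lean` for the last step.
-/

open MeasureTheory Filter Topology
open scoped ENNReal ComplexConjugate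

namespace P130

namespace Blk

variable (B : Blk)

/-- an invariant vector is orthogonal to the range of `V` -/
private theorem erg2_V (V : LT →ₗᵢ[ℂ] B.H2) (hV : ∀ x, V (mulF 1 x) = B.U2 (V x)) (f : B.H2)
    (hf : B.U2 f = f) (x : LT) : (inner ℂ f (V x) : ℂ) = 0 := by
  have hn : ∀ n : ℕ, (inner ℂ f (V (mulF (n : ℤ) x)) : ℂ) = inner ℂ f (V x) := by
    intro n
    induction n with
    | zero => rw [Nat.cast_zero, mulF_zero]
    | succ n ih =>
      rw [Nat.cast_succ, add_comm, mulF_add, hV]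
      conv_lhs => rw [← hf]
      rw [LinearIsometry.inner_map_map]
      exact ih
  obtain ⟨z, hz⟩ : ∃ z : LT, ∀ y : LT, (inner ℂ z y : ℂ) = inner ℂ f (V y) :=
    ⟨ContinuousLinearMap.adjoint V.toContinuousLinearMap f, fun y => by
      rw [ContinuousLinearMap.adjoint_inner_left]
      rfl⟩
  have hint : Integrable (fun t => (conj (z t) * x t : ℂ)) mT := by
    have h1 := L2.integrable_inner (𝕜 := ℂ) z x
    refine h1.congr (Filter.Eventually.of_forall fun t => ?_)
    simp only [RCLike.inner_apply']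
  have h1 := tendsto_fourier_L1 _ hint
  have h2 : ∀ n : ℕ, ∫ t, fourier (n : ℤ) t * (conj (z t) * x t) ∂mT = inner ℂ f (V x) := by
    intro n
    rw [← hn n, ← hz, L2.inner_def]
    apply integral_congr_ae
    filter_upwards [coeFn_mulF (n : ℤ) x] with t e1
    rw [e1, RCLike.inner_apply']
    ring
  simp_rw [h2] at h1
  exact tendsto_nhds_unique tendsto_const_nhds h1

private theorem erg2_shift (p : B.H2) (hU : B.U2 p = p) (n i : ℕ) (hi : i < B.M n) :
    (inner ℂ (B.e2 false n i) p : ℂ) = inner ℂ (B.e2 false n 0) p := by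
  induction i with
  | zero => rfl
  | succ i ih =>
    rw [← B.U2_e2 false n i hi]
    conv_lhs => rw [← hU]
    rw [LinearIsometry.inner_map_map]
    exact ih (by omega)

private theorem erg2_step (p : B.H2) (hU : B.U2 p = p) (n : ℕ) :
    (inner ℂ (B.e2 false n 0) p : ℂ) =
      (Real.sqrt (B.m n) : ℂ) * inner ℂ (B.e2 false (n + 1) 0) p := by
  have hm : 0 < Real.sqrt (B.m n) := Real.sqrt_pos.2 (by exact_mod_cast B.m_pos n)
  have hmC : (Real.sqrt (B.m n) : ℂ) ≠ 0 := by exact_mod_cast hm.ne'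
  have h1 : ((B.m n : ℕ) : ℂ) = (Real.sqrt (B.m n) : ℂ) * (Real.sqrt (B.m n) : ℂ) := by
    rw [← Complex.ofReal_mul, Real.mul_self_sqrt (Nat.cast_nonneg _)]
    push_cast
    rfl
  rw [B.e2_refine false n 0 (B.M_pos n), sum_inner]
  have h2 : ∀ j ∈ Finset.range (B.m n),
      (inner ℂ (B.cf false n j • B.e2 false (n + 1) (0 + j * B.M n)) p : ℂ) =
        (Real.sqrt (B.m n) : ℂ)⁻¹ * inner ℂ (B.e2 false (n + 1) 0) p := by
    intro j hj
    have h3 : 0 + j * B.M n < B.M (n + 1) := by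
      rw [B.M_succ, zero_add, mul_comm]
      exact (Nat.mul_lt_mul_left (B.M_pos n)).2 (Finset.mem_range.1 hj)
    rw [inner_smul_left, B.erg2_shift p hU (n + 1) _ h3]
    congr 1
    unfold cf chi
    simp
  rw [Finset.sum_congr rfl h2, Finset.sum_const, Finset.card_range, nsmul_eq_mul, h1]
  field_simp

/-- an invariant vector is constant -/
theorem inv2_const (V : LT →ₗᵢ[ℂ] B.H2) (hV : ∀ x, V (mulF 1 x) = B.U2 (V x))
    (hR : ∀ f : B.H2, f ∈ B.Ho ↔ ∃ x, V x = f) (f : B.H2) (hf : B.U2 f = f) :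
    ∃ c : ℂ, (f : B.Y2 → ℂ) =ᵐ[B.mu2] fun _ => c := by
  have hone : B.U2 (B.e2 false 0 0) = B.e2 false 0 0 := by
    have h := B.U2_e2_last 0
    rw [B.M_zero] at h
    exact h
  obtain ⟨c, hc⟩ : ∃ c : ℂ, c = inner ℂ (B.e2 false 0 0) f := ⟨_, rfl⟩
  obtain ⟨g, hg⟩ : ∃ g : B.H2, g = f - c • B.e2 false 0 0 := ⟨_, rfl⟩
  have hgU : B.U2 g = g := by
    rw [hg, map_sub, map_smul, hf, hone]
  have hα : ∀ n : ℕ, (inner ℂ (B.e2 false n 0) g : ℂ) = 0 := by
    intro n
    induction n with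
    | zero =>
      rw [hg, inner_sub_right, inner_smul_right, B.inner_e2 false false 0 0 0 (B.M_pos 0),
        if_pos ⟨rfl, rfl⟩, mul_one, hc, sub_self]
    | succ n ih =>
      have h := B.erg2_step g hgU n
      rw [ih] at h
      have hm : 0 < Real.sqrt (B.m n) := Real.sqrt_pos.2 (by exact_mod_cast B.m_pos n)
      have hmC : (Real.sqrt (B.m n) : ℂ) ≠ 0 := by exact_mod_cast hm.ne'
      exact (mul_eq_zero.1 h.symm).resolve_left hmC
  have hall : ∀ (κ : Bool) (n i : ℕ), i < B.M n → (inner ℂ (B.e2 κ n i) g : ℂ) = 0 := by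
    intro κ n i hi
    cases κ
    · rw [B.erg2_shift g hgU n i hi, hα n]
    · have h1 : B.e2 true n i ∈ B.Ho :=
        Submodule.le_topologicalClosure _ (Submodule.subset_span ⟨n, i, hi, rfl⟩)
      obtain ⟨x, hx⟩ := (hR _).1 h1
      rw [← hx, ← inner_conj_symm, B.erg2_V V hV g hgU x, map_zero]
  have hg0 : g = 0 := by
    have h1 : (Submodule.span ℂ {f : B.H2 | ∃ (κ : Bool) (n i : ℕ), i < B.M n ∧
        f = B.e2 κ n i}).topologicalClosure ≤ (ℂ ∙ g)ᗮ := by
      refine Submodule.topologicalClosure_minimal _ ?_ (Submodule.isClosed_orthogonal _)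
      rw [Submodule.span_le]
      rintro _ ⟨κ, n, i, hi, rfl⟩
      rw [SetLike.mem_coe, Submodule.mem_orthogonal_singleton_iff_inner_left]
      exact hall κ n i hi
    rw [B.dense_e2] at h1
    have h2 : g ∈ (ℂ ∙ g)ᗮ := h1 Submodule.mem_top
    rw [Submodule.mem_orthogonal_singleton_iff_inner_left] at h2
    exact inner_self_eq_zero.1 h2
  have hf2 : f = c • B.e2 false 0 0 := by
    rw [hg] at hg0
    exact sub_eq_zero.1 hg0
  refine ⟨c, ?_⟩
  rw [hf2]
  filter_upwards [Lp.coeFn_smul c (B.e2 false 0 0), B.coeFn_e2 false 0 0] with y e1 e2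
  rw [e1, Pi.smul_apply, e2]
  unfold Blk.E2
  have h3 := B.idx_lt 0 y.1
  rw [B.M_zero] at h3
  rw [if_pos (by omega), B.M_zero]
  simp [chi]

theorem ergodic_T2 (V : LT →ₗᵢ[ℂ] B.H2) (hV : ∀ x, V (mulF 1 x) = B.U2 (V x))
    (hR : ∀ f : B.H2, f ∈ B.Ho ↔ ∃ x, V x = f) : Ergodic B.T2 B.mu2 := by
  refine ⟨B.measurePreserving_T2, ⟨fun A hA hinv => ?_⟩⟩
  set f : B.H2 := indicatorConstLp 2 hA (measure_ne_top B.mu2 A) (1 : ℂ) with hfdef
  have hfA : (f : B.Y2 → ℂ) =ᵐ[B.mu2] A.indicator fun _ => (1 : ℂ) := indicatorConstLp_coeFn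
  have hU : B.U2 f = f := by
    apply Lp.ext
    have h1 := B.measurePreserving_T2.quasiMeasurePreserving.ae_eq_comp hfA
    filter_upwards [B.coeFn_U2 f, h1, hfA] with y e1 e2 e3
    rw [e1, e3]
    have e4 : f (B.T2 y) = A.indicator (fun _ => (1 : ℂ)) (B.T2 y) := e2
    rw [e4]
    have e5 : B.T2 y ∈ A ↔ y ∈ A := by
      have : y ∈ B.T2 ⁻¹' A ↔ y ∈ A := by rw [hinv]
      exact this
    by_cases hy : y ∈ A
    · rw [Set.indicator_of_mem hy, Set.indicator_of_mem (e5.2 hy)]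
    · rw [Set.indicator_of_notMem hy, Set.indicator_of_notMem fun h => hy (e5.1 h)]
  obtain ⟨c, hc⟩ := B.inv2_const V hV hR f hU
  have hAc : A.indicator (fun _ => (1 : ℂ)) =ᵐ[B.mu2] fun _ => c := hfA.symm.trans hc
  rw [eventuallyConst_set]
  by_cases hc1 : c = 1
  · left
    filter_upwards [hAc] with y hy
    by_contra hyA
    rw [Set.indicator_of_notMem hyA, hc1] at hy
    exact zero_ne_one hy
  · right
    filter_upwards [hAc] with y hy hyA
    rw [Set.indicator_of_mem hyA] at hy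
    exact hc1 hy.symm

end Blk

end P130
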