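import Vale.Agent.Lib.P130.Morse.Defs3
import Vale.Agent.Lib.P130.Morse.Vec
import Vale.Agent.Lib.P130.JZero

/-!
# P130 Morse: the odd part is `L²(𝕋)`

`exists_limit` (Limit.lean) with `e n i = e2 true n i`, `b n i = mulF i (g n)`, `δ = 0` gives `J` with
`J (e2 true n i) = mulF i (g n)`; `J U2 = mulF 1 J` on the closed span (on `e2 true n i`, `i + 1 < M n`, it
is exact; the last level is a sum of levels of tower `N` of which only one is a last level, with
coefficient of modulus `≤ (M n / M N)^{1/2}`); surjectivity: `x ⟂ range` implies `x ⟂ mulF k (g 0)` for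
all `k : ℤ`, so `x = 0` by `mul_ae_zero` and `g 0 ≠ 0` a.e.
-/

open MeasureTheory Filter Topology
open scoped ENNReal ComplexConjugate

namespace P130

private theorem iso2_geo_zero {E : Type*} [NormedAddCommGroup E] [NormedSpace ℂ E] (w : ℕ → E)
    (c : ℕ → ℂ) (hc : ∀ n, ‖c n‖ ≤ (Real.sqrt 2)⁻¹) (hw : ∀ n, w n = c n • w (n + 1)) (C : ℝ)
    (hC : ∀ n, ‖w n‖ ≤ C) (n : ℕ) : w n = 0 := by
  have h1 : ∀ k n, ‖w n‖ ≤ ((Real.sqrt 2)⁻¹) ^ k * C := by
    intro k
    induction k with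
    | zero => intro n; simpa using hC n
    | succ k ih =>
      intro n
      rw [hw n, norm_smul, pow_succ']
      calc ‖c n‖ * ‖w (n + 1)‖ ≤ (Real.sqrt 2)⁻¹ * (((Real.sqrt 2)⁻¹) ^ k * C) :=
            mul_le_mul (hc n) (ih (n + 1)) (norm_nonneg _) (by positivity)
        _ = (Real.sqrt 2)⁻¹ * (Real.sqrt 2)⁻¹ ^ k * C := by ring
  have hlt : (Real.sqrt 2)⁻¹ < 1 := by
    refine inv_lt_one_of_one_lt₀ ?_
    rw [Real.lt_sqrt (by norm_num)]
    norm_num
  have h2 : Tendsto (fun k : ℕ => ((Real.sqrt 2)⁻¹) ^ k * C) atTop (𝓝 0) := by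
    have := (tendsto_pow_atTop_nhds_zero_of_lt_one (by positivity) hlt).mul_const C
    rwa [zero_mul] at this
  have h3 : ‖w n‖ ≤ 0 := ge_of_tendsto' h2 fun k => h1 k n
  exact norm_le_zero_iff.1 h3

private theorem iso2_geo_mem {E : Type*} [NormedAddCommGroup E] [InnerProductSpace ℂ E]
    [CompleteSpace E] (S : Submodule ℂ E) (hS : IsClosed (S : Set E)) (v : ℕ → E)
    (c : ℕ → ℂ) (hc : ∀ n, ‖c n‖ ≤ (Real.sqrt 2)⁻¹) (hv : ∀ n, v n - c n • v (n + 1) ∈ S) (C : ℝ)
    (hC : ∀ n, ‖v n‖ ≤ C) (n : ℕ) : v n ∈ S := by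
  have : CompleteSpace S := hS.completeSpace_coe
  rw [← Submodule.orthogonal_orthogonal S, Submodule.mem_orthogonal]
  intro q hq
  refine iso2_geo_zero (fun n => (inner ℂ q (v n) : ℂ)) c hc (fun n => ?_) (‖q‖ * C)
    (fun n => ?_) n
  · have h1 := (Submodule.mem_orthogonal' S q).1 hq _ (hv n)
    rw [inner_sub_right, inner_smul_right, sub_eq_zero] at h1
    exact h1
  · exact (norm_inner_le_norm _ _).trans (mul_le_mul_of_nonneg_left (hC n) (norm_nonneg _))

private theorem iso2_pJ_self {H K : Type*} [NormedAddCommGroup H] [InnerProductSpace ℂ H]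
    [NormedAddCommGroup K] [InnerProductSpace ℂ K] {ι : Type*} [Fintype ι] (e : ι → H) (b : ι → K)
    (he : Orthonormal ℂ e) (i : ι) : pJ e b (e i) = b i := by
  classical
  rw [pJ_apply, Finset.sum_eq_single i]
  · have h1 := orthonormal_iff_ite.1 he i i
    rw [h1, if_pos rfl, one_smul]
  · intro j _ hj
    have h1 := orthonormal_iff_ite.1 he j i
    rw [h1, if_neg hj, zero_smul]
  · intro h
    exact absurd (Finset.mem_univ i) h

namespace Blk

variable (B : Blk)

private theorem iso2_cf (n j : ℕ) : ‖B.cf true n j‖ ≤ (Real.sqrt 2)⁻¹ := by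
  unfold cf
  rw [norm_div, norm_chi, Complex.norm_real, Real.norm_of_nonneg (Real.sqrt_nonneg _), one_div]
  refine inv_anti₀ (by positivity) (Real.sqrt_le_sqrt ?_)
  exact_mod_cast B.hm n

private theorem iso2_lt (n i j : ℕ) (hi : i < B.M n) (hj : j < B.m n) :
    i + j * B.M n < B.M (n + 1) := by
  rw [B.M_succ]
  calc i + j * B.M n < B.M n + j * B.M n := by omega
    _ = B.M n * (j + 1) := by ring
    _ ≤ B.M n * B.m n := Nat.mul_le_mul_left _ hj

private theorem iso2_orth (n : ℕ) :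
    Orthonormal ℂ (fun i : Fin (B.M n) => B.e2 true n i) := by
  classical
  rw [orthonormal_iff_ite]
  intro i j
  rw [B.inner_e2 true true n i j i.2]
  by_cases h : i = j
  · rw [if_pos ⟨congrArg Fin.val h, rfl⟩, if_pos h]
  · rw [if_neg (fun h2 => h (Fin.ext h2.1)), if_neg h]

/-- induction over the levels for a linear map that kills what is produced at the next stage -/
private theorem iso2_last {E : Type*} [NormedAddCommGroup E] [NormedSpace ℂ E] (D : B.H2 →L[ℂ] E)
    (h0 : ∀ n i, i + 1 < B.M n → D (B.e2 true n i) = 0) (n i : ℕ) (hi : i < B.M n) :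
    D (B.e2 true n i) = 0 := by
  by_cases h1 : i + 1 < B.M n
  · exact h0 n i h1
  obtain rfl : i = B.M n - 1 := by omega
  refine iso2_geo_zero (fun n => D (B.e2 true n (B.M n - 1))) (fun n => B.cf true n (B.m n - 1))
    (fun n => B.iso2_cf n _) (fun n => ?_) ‖D‖ (fun n => ?_) n
  · have hM := B.M_pos n
    have hm := B.m_pos n
    obtain ⟨m', hm'⟩ : ∃ m', B.m n = m' + 1 := ⟨B.m n - 1, by omega⟩
    show D (B.e2 true n (B.M n - 1)) = B.cf true n (B.m n - 1) •
      D (B.e2 true (n + 1) (B.M (n + 1) - 1))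
    rw [B.e2_refine true n (B.M n - 1) (by omega), map_sum, hm', Finset.sum_range_succ]
    have h2 : ∑ j ∈ Finset.range m', D (B.cf true n j • B.e2 true (n + 1)
        (B.M n - 1 + j * B.M n)) = 0 := by
      refine Finset.sum_eq_zero fun j hj => ?_
      rw [map_smul, h0, smul_zero]
      have hj' := Finset.mem_range.1 hj
      have h3 := B.iso2_lt n 0 (j + 1) hM (by omega)
      have h4 : 0 + (j + 1) * B.M n = j * B.M n + B.M n := by ring
      omega
    rw [h2, zero_add, map_smul]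
    have h5 : B.M n - 1 + m' * B.M n = B.M (n + 1) - 1 := by
      rw [B.M_succ, hm']
      have h6 : B.M n * (m' + 1) = m' * B.M n + B.M n := by ring
      omega
    rw [h5, Nat.add_sub_cancel]
  · show ‖D (B.e2 true n (B.M n - 1))‖ ≤ ‖D‖
    have h2 : ‖B.e2 true n (B.M n - 1)‖ = 1 :=
      (B.iso2_orth n).1 ⟨B.M n - 1, by have := B.M_pos n; omega⟩
    have h3 := D.le_opNorm (B.e2 true n (B.M n - 1))
    rwa [h2, mul_one] at h3

private theorem iso2_mem (n i : ℕ) (hi : i < B.M n) : B.e2 true n i ∈ B.Ho :=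
  Submodule.le_topologicalClosure _ (Submodule.subset_span ⟨n, i, hi, rfl⟩)

private theorem iso2_closed : IsClosed (B.Ho : Set B.H2) :=
  Submodule.isClosed_topologicalClosure _

/-- to prove a closed condition on `Ho` it suffices to prove it on the level vectors -/
private theorem iso2_ind (S : Submodule ℂ B.H2) (hS : IsClosed (S : Set B.H2))
    (h : ∀ n i, i < B.M n → B.e2 true n i ∈ S) : B.Ho ≤ S := by
  refine Submodule.topologicalClosure_minimal _ ?_ hS
  rw [Submodule.span_le]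
  rintro _ ⟨n, i, hi, rfl⟩
  exact h n i hi

/-- `U2` maps `Ho` into itself -/
private theorem iso2_U_mem (f : B.H2) (hf : f ∈ B.Ho) : B.U2 f ∈ B.Ho := by
  have h1 : B.Ho ≤ B.Ho.comap (B.U2.toLinearMap) := by
    refine B.iso2_ind _ (B.iso2_closed.preimage B.U2.continuous) fun n i hi => ?_
    rw [Submodule.mem_comap]
    show B.U2 (B.e2 true n i) ∈ B.Ho
    by_cases h1 : i + 1 < B.M n
    · rw [B.U2_e2 true n i h1]
      exact B.iso2_mem n _ h1
    obtain rfl : i = B.M n - 1 := by omega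
    refine iso2_geo_mem B.Ho B.iso2_closed (fun n => B.U2 (B.e2 true n (B.M n - 1)))
      (fun n => B.cf true n (B.m n - 1)) (fun n => B.iso2_cf n _) (fun n => ?_) 1 (fun n => ?_) n
    · have hM := B.M_pos n
      have hm := B.m_pos n
      obtain ⟨m', hm'⟩ : ∃ m', B.m n = m' + 1 := ⟨B.m n - 1, by omega⟩
      show B.U2 (B.e2 true n (B.M n - 1)) - B.cf true n (B.m n - 1) •
        B.U2 (B.e2 true (n + 1) (B.M (n + 1) - 1)) ∈ B.Ho
      have h5 : B.M n - 1 + m' * B.M n = B.M (n + 1) - 1 := by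
        rw [B.M_succ, hm']
        have h6 : B.M n * (m' + 1) = m' * B.M n + B.M n := by ring
        omega
      rw [B.e2_refine true n (B.M n - 1) (by omega), map_sum, hm', Finset.sum_range_succ,
        map_smul, h5, Nat.add_sub_cancel, add_sub_cancel_right]
      refine Submodule.sum_mem _ fun j hj => ?_
      rw [map_smul]
      refine Submodule.smul_mem _ _ ?_
      have hj' := Finset.mem_range.1 hj
      have h3 := B.iso2_lt n 0 (j + 1) hM (by omega)
      have h4 : 0 + (j + 1) * B.M n = j * B.M n + B.M n := by ring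
      rw [B.U2_e2 true (n + 1) _ (by omega)]
      exact B.iso2_mem _ _ (by omega)
    · show ‖B.U2 (B.e2 true n (B.M n - 1))‖ ≤ 1
      rw [LinearIsometry.norm_map]
      exact ((B.iso2_orth n).1 ⟨B.M n - 1, by have := B.M_pos n; omega⟩).le
  exact h1 hf

theorem exists_V2 (g : ℕ → LT)
    (hg : ∀ n, g n = ∑ j ∈ Finset.range (B.m n), B.cf true n j •
      mulF ((j * B.M n : ℕ) : ℤ) (g (n + 1)))
    (ho : ∀ n, Orthonormal ℂ (fun i : Fin (B.M n) => mulF ((i : ℕ) : ℤ) (g n)))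
    (h0 : ∀ᵐ t ∂mT, g 0 t ≠ 0) :
    ∃ V : LT →ₗᵢ[ℂ] B.H2, (∀ x, V (mulF 1 x) = B.U2 (V x)) ∧
      (∀ f : B.H2, f ∈ B.Ho ↔ ∃ x, V x = f) := by
  -- the map `J`
  have hpJ : ∀ n (i : Fin (B.M n)), pJ (fun i : Fin (B.M (n + 1)) => B.e2 true (n + 1) i)
      (fun i : Fin (B.M (n + 1)) => mulF ((i : ℕ) : ℤ) (g (n + 1))) (B.e2 true n i) =
      mulF ((i : ℕ) : ℤ) (g n) := by
    intro n i
    rw [B.e2_refine true n i i.2, map_sum, hg n, map_sum]
    refine Finset.sum_congr rfl fun j hj => ?_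
    rw [map_smul, map_smul]
    congr 1
    have h1 := iso2_pJ_self (fun i : Fin (B.M (n + 1)) => B.e2 true (n + 1) i)
      (fun i : Fin (B.M (n + 1)) => mulF ((i : ℕ) : ℤ) (g (n + 1))) (B.iso2_orth (n + 1))
      ⟨i + j * B.M n, B.iso2_lt n i j i.2 (Finset.mem_range.1 hj)⟩
    refine h1.trans ?_
    show mulF (((i : ℕ) + j * B.M n : ℕ) : ℤ) (g (n + 1)) = _
    rw [← mulF_add]
    push_cast
    rfl
  obtain ⟨J, hJ1, -, hJ3, hJ4⟩ := exists_limit (fun n (i : Fin (B.M n)) => B.e2 true n i)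
    (fun n (i : Fin (B.M n)) => mulF ((i : ℕ) : ℤ) (g n)) (fun n => B.iso2_orth n) ho
    (fun n i => by
      show B.e2 true n i ∈ _
      rw [B.e2_refine true n i i.2]
      refine Submodule.sum_mem _ fun j hj => Submodule.smul_mem _ _ (Submodule.subset_span ?_)
      exact ⟨⟨i + j * B.M n, B.iso2_lt n i j i.2 (Finset.mem_range.1 hj)⟩, rfl⟩)
    (fun _ => 0) summable_zero (fun n i => by
      have h := hpJ n i
      rw [pJ_apply] at h
      rw [h, sub_self, norm_zero, zero_mul])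
  have hJe : ∀ n i, i < B.M n → J (B.e2 true n i) = mulF (i : ℤ) (g n) := by
    intro n i hi
    have h := hJ3 n ⟨i, hi⟩
    rw [tsum_zero] at h
    exact sub_eq_zero.1 (norm_le_zero_iff.1 h)
  have hHo : B.Ho = (⨆ n, Submodule.span ℂ
      (Set.range (fun i : Fin (B.M n) => B.e2 true n i))).topologicalClosure := by
    unfold Ho
    congr 1
    rw [← Submodule.span_iUnion]
    congr 1
    ext f
    rw [Set.mem_iUnion]
    constructor
    · rintro ⟨n, i, hi, rfl⟩
      exact ⟨n, ⟨i, hi⟩, rfl⟩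
    · rintro ⟨n, i, rfl⟩
      exact ⟨n, i, i.2, rfl⟩
  have hiso : ∀ f ∈ B.Ho, ‖J f‖ = ‖f‖ := by
    intro f hf
    rw [hHo] at hf
    exact hJ1 f hf
  -- intertwining
  have hint : ∀ f ∈ B.Ho, J (B.U2 f) = mulF 1 (J f) := by
    obtain ⟨D, hD⟩ : ∃ D : B.H2 →L[ℂ] LT, ∀ f, D f = J (B.U2 f) - mulF 1 (J f) :=
      ⟨J.comp B.U2.toContinuousLinearMap - (mulF 1).toContinuousLinearMap.comp J, fun f => rfl⟩
    have h1 : ∀ n i, i < B.M n → D (B.e2 true n i) = 0 := by
      refine B.iso2_last D fun n i hi => ?_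
      rw [hD, B.U2_e2 true n i hi, hJe n _ hi, hJe n i (by omega), ← mulF_add, sub_eq_zero,
        Nat.cast_add, Nat.cast_one, add_comm (i : ℤ) 1]
    have h2 : B.Ho ≤ LinearMap.ker (D : B.H2 →ₗ[ℂ] LT) := by
      refine B.iso2_ind _ (ContinuousLinearMap.isClosed_ker D) fun n i hi => ?_
      exact h1 n i hi
    intro f hf
    have h3 : D f = 0 := h2 hf
    rw [hD] at h3
    exact sub_eq_zero.1 h3
  -- the range
  have hcs : CompleteSpace B.Ho := B.iso2_closed.completeSpace_coe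
  obtain ⟨W, hW⟩ : ∃ W : B.Ho →ₗᵢ[ℂ] LT, ∀ f : B.Ho, W f = J (f : B.H2) := by
    refine ⟨⟨(J : B.H2 →ₗ[ℂ] LT).comp B.Ho.subtype, fun f => ?_⟩, fun f => rfl⟩
    exact hiso f f.2
  obtain ⟨R, hR⟩ : ∃ R : Submodule ℂ LT, R = LinearMap.range W.toLinearMap := ⟨_, rfl⟩
  have hmemR : ∀ g : LT, g ∈ R ↔ ∃ f ∈ B.Ho, J f = g := by
    intro g
    rw [hR, LinearMap.mem_range]
    constructor
    · rintro ⟨f, hf⟩
      exact ⟨f, f.2, (hW f).symm.trans hf⟩
    · rintro ⟨f, hf, hfg⟩
      exact ⟨⟨f, hf⟩, (hW ⟨f, hf⟩).trans hfg⟩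
  have hRc : IsClosed (R : Set LT) := by
    have h1 := W.isometry.isClosedEmbedding.isClosed_range
    have h2 : (R : Set LT) = Set.range W := by
      rw [hR]
      rfl
    rw [h2]
    exact h1
  have hlev : ∀ n i, i < B.M n → mulF (i : ℤ) (g n) ∈ R := fun n i hi =>
    (hmemR _).2 ⟨_, B.iso2_mem n i hi, hJe n i hi⟩
  have hup : ∀ x ∈ R, mulF 1 x ∈ R := by
    intro x hx
    obtain ⟨f, hf, rfl⟩ := (hmemR x).1 hx
    exact (hmemR _).2 ⟨B.U2 f, B.iso2_U_mem f hf, hint f hf⟩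
  have hneg : ∀ n, mulF (-1) (g n) ∈ R := by
    intro n
    refine iso2_geo_mem R hRc (fun n => mulF (-1) (g n)) (fun n => B.cf true n 0)
      (fun n => B.iso2_cf n _) (fun n => ?_) 1 (fun n => ?_) n
    · have hM := B.M_pos n
      have hm := B.m_pos n
      obtain ⟨m', hm'⟩ : ∃ m', B.m n = m' + 1 := ⟨B.m n - 1, by omega⟩
      show mulF (-1) (g n) - B.cf true n 0 • mulF (-1) (g (n + 1)) ∈ R
      rw [hg n, map_sum, hm', Finset.sum_range_succ', map_smul, ← mulF_add]
      have h1 : (-1 : ℤ) + ((0 * B.M n : ℕ) : ℤ) = -1 := by simp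
      rw [h1, add_sub_cancel_right]
      refine Submodule.sum_mem _ fun j hj => ?_
      rw [map_smul, ← mulF_add]
      refine Submodule.smul_mem _ _ ?_
      have hj' := Finset.mem_range.1 hj
      have h3 := B.iso2_lt n 0 (j + 1) hM (by omega)
      rw [zero_add] at h3
      have h4 : 0 < (j + 1) * B.M n := by positivity
      have h5 : (-1 : ℤ) + (((j + 1) * B.M n : ℕ) : ℤ) = (((j + 1) * B.M n - 1 : ℕ) : ℤ) := by
        omega
      rw [h5]
      exact hlev (n + 1) _ (by omega)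
    · show ‖mulF (-1) (g n)‖ ≤ 1
      rw [LinearIsometry.norm_map]
      have h1 := (ho n).1 ⟨0, B.M_pos n⟩
      rw [LinearIsometry.norm_map] at h1
      exact h1.le
  have hdown : ∀ x ∈ R, mulF (-1) x ∈ R := by
    intro x hx
    obtain ⟨f, hf, rfl⟩ := (hmemR x).1 hx
    have h1 : B.Ho ≤ R.comap ((mulF (-1)).toContinuousLinearMap.comp J : B.H2 →ₗ[ℂ] LT) := by
      refine B.iso2_ind _ (hRc.preimage
        ((mulF (-1)).toContinuousLinearMap.comp J).continuous) fun n i hi => ?_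
      rw [Submodule.mem_comap]
      show mulF (-1) (J (B.e2 true n i)) ∈ R
      rw [hJe n i hi, ← mulF_add]
      rcases Nat.eq_zero_or_pos i with h | h
      · subst h
        rw [Nat.cast_zero, add_zero]
        exact hneg n
      · have h2 : (-1 : ℤ) + (i : ℤ) = ((i - 1 : ℕ) : ℤ) := by omega
        rw [h2]
        exact hlev n _ (by omega)
    exact h1 hf
  have hall : ∀ l : ℤ, mulF l (g 0) ∈ R := by
    have hz : mulF 0 (g 0) ∈ R := by
      have := hlev 0 0 (B.M_pos 0)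
      rwa [Nat.cast_zero] at this
    intro l
    induction l using Int.induction_on with
    | zero => exact hz
    | succ n ih =>
      have := hup _ ih
      rwa [← mulF_add, add_comm] at this
    | pred n ih =>
      have := hdown _ ih
      rwa [← mulF_add, add_comm, ← sub_eq_add_neg] at this
  have hRcs : CompleteSpace R := hRc.completeSpace_coe
  have hsurj : ∀ x : LT, ∃ f ∈ B.Ho, J f = x := by
    intro x
    obtain ⟨r, hr, q, hq, hgq⟩ := Submodule.exists_add_mem_mem_orthogonal (K := R) x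
    have hq0 : q = 0 := by
      have h1 := mul_ae_zero q (g 0) fun l =>
        (Submodule.mem_orthogonal' R q).1 hq _ (hall l)
      rw [Lp.eq_zero_iff_ae_eq_zero]
      filter_upwards [h1, h0] with t e1 e2
      by_contra hc
      exact e2 (e1 hc)
    rw [hq0, add_zero] at hgq
    rw [hgq]
    exact (hmemR r).1 hr
  -- the inverse
  have hWs : Function.Surjective W := by
    intro x
    obtain ⟨f, hf, hfg⟩ := hsurj x
    exact ⟨⟨f, hf⟩, (hW _).trans hfg⟩
  obtain ⟨We, hWe⟩ : ∃ We : B.Ho ≃ₗᵢ[ℂ] LT, ∀ f : B.Ho, We f = J (f : B.H2) :=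
    ⟨LinearIsometryEquiv.ofSurjective W hWs, fun f => hW f⟩
  obtain ⟨V, hV⟩ : ∃ V : LT →ₗᵢ[ℂ] B.H2, ∀ x, V x = ((We.symm x : B.Ho) : B.H2) :=
    ⟨B.Ho.subtypeₗᵢ.comp We.symm.toLinearIsometry, fun x => rfl⟩
  have hVmem : ∀ x, V x ∈ B.Ho := fun x => by
    rw [hV]
    exact (We.symm x).2
  have hJV : ∀ x, J (V x) = x := by
    intro x
    rw [hV, ← hWe, LinearIsometryEquiv.apply_symm_apply]
  refine ⟨V, ?_, ?_⟩
  · intro x
    have h1 : V (mulF 1 x) - B.U2 (V x) ∈ B.Ho :=
      Submodule.sub_mem _ (hVmem _) (B.iso2_U_mem _ (hVmem x))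
    have h2 := hiso _ h1
    rw [map_sub, hJV, hint _ (hVmem x), hJV, sub_self, norm_zero] at h2
    exact sub_eq_zero.1 (norm_eq_zero.1 h2.symm)
  · intro f
    constructor
    · intro hf
      refine ⟨J f, ?_⟩
      have h1 : V (J f) - f ∈ B.Ho := Submodule.sub_mem _ (hVmem _) hf
      have h2 := hiso _ h1
      rw [map_sub, hJV, sub_self, norm_zero] at h2
      exact sub_eq_zero.1 (norm_eq_zero.1 h2.symm)
    · rintro ⟨x, rfl⟩
      exact hVmem x

end Blk

end P130
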