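import Vale.Agent.Lib.P130.Morse.Compl
import Vale.Agent.Lib.P130.RL

/-!
# P130 Morse: simple spectrum

`v = V 1 + ∑_{n, k < M_n} c_{n,k} ef n k` with `c_{n,k} > 0` summable.  If `f ⟂ U^j v` for all `j ∈ ℤ`:
the Cesaro averages of `z^{-j} ⟨f, U^j v⟩`, `z = ev n k`, converge to
`(∑_{ev n' k' = z} c_{n',k'}) ⟨f, ef n k⟩` (the part `⟨f, U^j V 1⟩` tends to `0` by Riemann-Lebesgue,
`tendsto_fourier_L2`), and `ef n' k' = ef n k` if `ev n' k' = ev n k` (`ef_eq_of_ev`); so
`⟨f, ef n k⟩ = 0` for all `n, k`, then `⟨f, U^j V 1⟩ = 0` for all `j`, `f ⟂ range V`, `f = 0`.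
-/

open MeasureTheory Filter Topology
open scoped ENNReal ComplexConjugate

namespace P130

private theorem simp_avg_bound {ζ : ℂ} (hζ : ‖ζ‖ = 1) (L : ℕ) :
    ‖((L : ℝ)⁻¹ : ℝ) • ∑ n ∈ Finset.range L, ζ ^ n‖ ≤ 1 := by
  have h1 : ‖∑ n ∈ Finset.range L, ζ ^ n‖ ≤ L := by
    refine (norm_sum_le _ _).trans ?_
    simp [norm_pow, hζ]
  rw [norm_smul, Real.norm_of_nonneg (by positivity)]
  rcases Nat.eq_zero_or_pos L with h | h
  · subst h
    simp
  · have h2 : (0 : ℝ) < L := by exact_mod_cast h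
    calc ((L : ℝ)⁻¹) * ‖∑ n ∈ Finset.range L, ζ ^ n‖ ≤ (L : ℝ)⁻¹ * L :=
          mul_le_mul_of_nonneg_left h1 (by positivity)
      _ = 1 := inv_mul_cancel₀ h2.ne'

private theorem simp_avg_tendsto {ζ : ℂ} (hζ : ‖ζ‖ = 1) :
    Tendsto (fun L : ℕ => ((L : ℝ)⁻¹ : ℝ) • ∑ n ∈ Finset.range L, ζ ^ n) atTop
      (𝓝 (if ζ = 1 then 1 else 0)) := by
  split_ifs with h
  · subst h
    refine tendsto_const_nhds.congr' ?_
    filter_upwards [eventually_ge_atTop 1] with L hL
    have h2 : (L : ℂ) ≠ 0 := by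
      have : L ≠ 0 := by omega
      exact_mod_cast this
    simp only [one_pow, Finset.sum_const, Finset.card_range, nsmul_eq_mul, mul_one]
    rw [Complex.real_smul]
    push_cast
    rw [inv_mul_cancel₀ h2]
  · have h1 : 0 < ‖ζ - 1‖ := norm_pos_iff.2 (sub_ne_zero.2 h)
    have hb : ∀ L : ℕ, ‖∑ n ∈ Finset.range L, ζ ^ n‖ ≤ 2 / ‖ζ - 1‖ := by
      intro L
      rw [geom_sum_eq h, norm_div]
      refine div_le_div_of_nonneg_right ?_ h1.le
      refine (norm_sub_le _ _).trans ?_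
      rw [norm_pow, hζ, one_pow, norm_one]
      norm_num
    refine squeeze_zero_norm (a := fun L : ℕ => ((L : ℝ)⁻¹) * (2 / ‖ζ - 1‖)) (fun L => ?_) ?_
    · rw [norm_smul, Real.norm_of_nonneg (by positivity)]
      exact mul_le_mul_of_nonneg_left (hb L) (by positivity)
    · have h3 : Tendsto (fun L : ℕ => ((L : ℝ)⁻¹)) atTop (𝓝 0) :=
        tendsto_inv_atTop_nhds_zero_nat
      have h4 := h3.mul_const (2 / ‖ζ - 1‖)
      rwa [zero_mul] at h4

section abs

variable {H : Type*} [NormedAddCommGroup H] [InnerProductSpace ℂ H] [CompleteSpace H]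

private theorem simp_norm_lam (U : H →ₗᵢ[ℂ] H) {w : H} {l : ℂ} (hw : U w = l • w)
    (hn : ‖w‖ = 1) : ‖l‖ = 1 := by
  have h1 := U.norm_map w
  rw [hw, norm_smul, hn, mul_one] at h1
  exact h1

private theorem simp_summable (w : ℕ → H) (hn : ∀ j, ‖w j‖ = 1) (n : ℕ) (l : ℕ → ℂ)
    (hl : ∀ j, ‖l j‖ = 1) :
    Summable fun j => (((1 / 2 : ℝ) ^ j : ℝ) : ℂ) • (l j) ^ n • w j := by
  refine Summable.of_norm ?_
  have h1 : (fun j => ‖(((1 / 2 : ℝ) ^ j : ℝ) : ℂ) • (l j) ^ n • w j‖) =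
      fun j : ℕ => (1 / 2 : ℝ) ^ j := by
    funext j
    rw [norm_smul, norm_smul, norm_pow, hl, hn, one_pow, one_mul, mul_one, Complex.norm_real,
      Real.norm_of_nonneg (by positivity)]
  rw [h1]
  exact summable_geometric_of_lt_one (by norm_num) (by norm_num)

private theorem simp_iter (U : H →ₗᵢ[ℂ] H) (w : ℕ → H) (lam : ℕ → ℂ)
    (hw : ∀ j, U (w j) = lam j • w j) (hn : ∀ j, ‖w j‖ = 1) (n : ℕ) :
    U^[n] (∑' j, (((1 / 2 : ℝ) ^ j : ℝ) : ℂ) • w j) =
      ∑' j, (((1 / 2 : ℝ) ^ j : ℝ) : ℂ) • (lam j) ^ n • w j := by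
  have hl : ∀ j, ‖lam j‖ = 1 := fun j => simp_norm_lam U (hw j) (hn j)
  induction n with
  | zero =>
    simp only [Function.iterate_zero, id, pow_zero, one_smul]
  | succ n ih =>
    rw [Function.iterate_succ_apply', ih]
    have h1 := U.toContinuousLinearMap.map_tsum (simp_summable w hn n lam hl)
    have h2 : U (∑' j, (((1 / 2 : ℝ) ^ j : ℝ) : ℂ) • (lam j) ^ n • w j) =
      ∑' j, U ((((1 / 2 : ℝ) ^ j : ℝ) : ℂ) • (lam j) ^ n • w j) := h1
    rw [h2]
    congr 1
    funext j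
    rw [map_smul, map_smul, hw, smul_smul ((lam j) ^ n), ← pow_succ]

private theorem simp_abs (U : H →ₗᵢ[ℂ] H) (f v0 : H) (w : ℕ → H) (lam : ℕ → ℂ)
    (hw : ∀ j, U (w j) = lam j • w j) (hn : ∀ j, ‖w j‖ = 1)
    (heq : ∀ i j, lam i = lam j → w i = w j)
    (hv0 : Tendsto (fun n : ℕ => (inner ℂ f (U^[n] v0) : ℂ)) atTop (𝓝 0))
    (h : ∀ n : ℕ, (inner ℂ f (U^[n] (v0 + ∑' j, (((1 / 2 : ℝ) ^ j : ℝ) : ℂ) • w j)) : ℂ) = 0)
    (j₀ : ℕ) : (inner ℂ f (w j₀) : ℂ) = 0 := by
  have hl : ∀ j, ‖lam j‖ = 1 := fun j => simp_norm_lam U (hw j) (hn j)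
  have hadd : ∀ n : ℕ, ∀ x y : H, U^[n] (x + y) = U^[n] x + U^[n] y := fun n x y =>
    iterate_map_add U n x y
  -- the Fourier type expansion
  have hexp : ∀ n : ℕ, (inner ℂ f (U^[n] v0) : ℂ) +
      ∑' j, (((1 / 2 : ℝ) ^ j : ℝ) : ℂ) * inner ℂ f (w j) * (lam j) ^ n = 0 := by
    intro n
    have h1 := h n
    rw [hadd, simp_iter U w lam hw hn, inner_add_right] at h1
    have h2 := (innerSL ℂ f).map_tsum (simp_summable w hn n lam hl)
    simp only [innerSL_apply_apply] at h2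
    rw [h2] at h1
    rw [← h1]
    congr 1
    congr 1
    funext j
    rw [inner_smul_right, inner_smul_right]
    ring
  set z : ℂ := lam j₀ with hz
  have hzn : ‖z‖ = 1 := hl j₀
  set b : ℕ → ℂ := fun j => (((1 / 2 : ℝ) ^ j : ℝ) : ℂ) * inner ℂ f (w j) with hb
  have hbn : ∀ j, ‖b j‖ ≤ (1 / 2 : ℝ) ^ j * ‖f‖ := by
    intro j
    rw [hb]
    simp only
    rw [norm_mul, Complex.norm_real, Real.norm_of_nonneg (by positivity)]
    refine mul_le_mul_of_nonneg_left ?_ (by positivity)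
    have h1 := norm_inner_le_norm (𝕜 := ℂ) f (w j)
    rwa [hn, mul_one] at h1
  have hbs : Summable fun j : ℕ => (1 / 2 : ℝ) ^ j * ‖f‖ :=
    (summable_geometric_of_lt_one (by norm_num) (by norm_num)).mul_right _
  have hζ : ∀ j, ‖conj z * lam j‖ = 1 := by
    intro j
    rw [norm_mul, RCLike.norm_conj, hzn, hl, one_mul]
  have hζ1 : ∀ j, conj z * lam j = 1 ↔ lam j = z := by
    intro j
    have h1 : conj z * z = 1 := by
      rw [Complex.conj_mul', hzn]
      norm_num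
    constructor
    · intro h2
      have h3 : z * (conj z * lam j) = z * 1 := by rw [h2]
      rw [← mul_assoc, mul_comm z (conj z), h1, one_mul, mul_one] at h3
      exact h3
    · intro h2
      rw [h2, h1]
  -- the averages
  have havg : ∀ L : ℕ, ((L : ℝ)⁻¹ : ℝ) • ∑ n ∈ Finset.range L,
      (conj z) ^ n * (inner ℂ f (U^[n] v0) : ℂ) +
      ∑' j, b j * (((L : ℝ)⁻¹ : ℝ) • ∑ n ∈ Finset.range L, (conj z * lam j) ^ n) = 0 := by
    intro L
    have h1 : ∑' j, b j * (((L : ℝ)⁻¹ : ℝ) • ∑ n ∈ Finset.range L, (conj z * lam j) ^ n) =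
        ((L : ℝ)⁻¹ : ℝ) • ∑ n ∈ Finset.range L, (conj z) ^ n * ∑' j, b j * (lam j) ^ n := by
      have h2 : ∀ n : ℕ, Summable fun j => (conj z) ^ n * (b j * (lam j) ^ n) := by
        intro n
        refine Summable.of_norm_bounded hbs fun j => ?_
        rw [norm_mul, norm_mul, norm_pow, norm_pow, RCLike.norm_conj, hzn, hl, one_pow, one_mul,
          mul_one]
        exact hbn j
      have h3 : ∑ n ∈ Finset.range L, (conj z) ^ n * ∑' j, b j * (lam j) ^ n =
          ∑' j, ∑ n ∈ Finset.range L, (conj z) ^ n * (b j * (lam j) ^ n) := by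
        rw [Summable.tsum_finsetSum fun n _ => h2 n]
        refine Finset.sum_congr rfl fun n _ => ?_
        rw [tsum_mul_left]
      rw [h3, Complex.real_smul, ← tsum_mul_left]
      congr 1
      funext j
      rw [Complex.real_smul, mul_left_comm, Finset.mul_sum]
      congr 1
      refine Finset.sum_congr rfl fun n _ => ?_
      rw [mul_pow]
      ring
    rw [h1, ← smul_add, ← Finset.sum_add_distrib]
    have h4 : ∑ n ∈ Finset.range L, ((conj z) ^ n * (inner ℂ f (U^[n] v0) : ℂ) +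
        (conj z) ^ n * ∑' j, b j * (lam j) ^ n) = 0 := by
      refine Finset.sum_eq_zero fun n _ => ?_
      rw [← mul_add]
      have h5 := hexp n
      rw [hb]
      rw [h5, mul_zero]
    rw [h4, smul_zero]
  have ht1 : Tendsto (fun L : ℕ => ((L : ℝ)⁻¹ : ℝ) • ∑ n ∈ Finset.range L,
      (conj z) ^ n * (inner ℂ f (U^[n] v0) : ℂ)) atTop (𝓝 0) := by
    have h1 : Tendsto (fun n : ℕ => (conj z) ^ n * (inner ℂ f (U^[n] v0) : ℂ)) atTop (𝓝 0) := by
      rw [tendsto_zero_iff_norm_tendsto_zero] at hv0 ⊢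
      refine hv0.congr fun n => ?_
      rw [norm_mul, norm_pow, RCLike.norm_conj, hzn, one_pow, one_mul]
    exact h1.cesaro_smul
  have ht2 : Tendsto (fun L : ℕ => ∑' j, b j * (((L : ℝ)⁻¹ : ℝ) •
      ∑ n ∈ Finset.range L, (conj z * lam j) ^ n)) atTop
      (𝓝 (∑' j, b j * (if conj z * lam j = 1 then 1 else 0))) := by
    refine tendsto_tsum_of_dominated_convergence hbs (fun j => ?_) ?_
    · exact (simp_avg_tendsto (hζ j)).const_mul (b j)
    · refine Eventually.of_forall fun L j => ?_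
      rw [norm_mul]
      calc ‖b j‖ * _ ≤ ‖b j‖ * 1 :=
            mul_le_mul_of_nonneg_left (simp_avg_bound (hζ j) L) (norm_nonneg _)
        _ = ‖b j‖ := mul_one _
        _ ≤ _ := hbn j
  have ht3 := ht1.add ht2
  simp only [havg, zero_add] at ht3
  have h6 : ∑' j, b j * (if conj z * lam j = 1 then 1 else 0) = 0 :=
    (tendsto_nhds_unique ht3 tendsto_const_nhds)
  set e : ℕ → ℝ := fun j => if lam j = z then (1 / 2 : ℝ) ^ j else 0 with he
  have he0 : ∀ j, 0 ≤ e j := by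
    intro j
    rw [he]
    simp only
    split_ifs
    · positivity
    · exact le_rfl
  have hes : Summable e := by
    refine Summable.of_nonneg_of_le he0 (fun j => ?_)
      (summable_geometric_of_lt_one (r := (1 / 2 : ℝ)) (by norm_num) (by norm_num))
    rw [he]
    simp only
    split_ifs
    · exact le_rfl
    · positivity
  have h7 : ∀ j, b j * (if conj z * lam j = 1 then 1 else 0) = (e j : ℂ) * inner ℂ f (w j₀) := by
    intro j
    rw [hb, he]
    simp only [hζ1]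
    by_cases hj : lam j = z
    · rw [if_pos hj, if_pos hj, mul_one, heq j j₀ hj]
    · rw [if_neg hj, if_neg hj, mul_zero, Complex.ofReal_zero, zero_mul]
  simp only [h7] at h6
  rw [tsum_mul_right, ← Complex.ofReal_tsum] at h6
  rcases mul_eq_zero.1 h6 with h8 | h8
  · exfalso
    have h9 : ∑' j, e j = 0 := by exact_mod_cast h8
    have h10 : 0 < ∑' j, e j := by
      refine hes.tsum_pos he0 j₀ ?_
      have h11 : e j₀ = (1 / 2 : ℝ) ^ j₀ := if_pos hz.symm
      rw [h11]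
      positivity
    linarith
  · exact h8

end abs

namespace Blk

variable (B : Blk)

/-- the constant function `1` -/
private theorem simp_memLp_one : MemLp (fun _ : 𝕋 => (1 : ℂ)) 2 mT := memLp_const 1

private noncomputable def simpOne : LT := simp_memLp_one.toLp _

private theorem simp_coe_mulF_one (n : ℤ) :
    (mulF n simpOne : 𝕋 → ℂ) =ᵐ[mT] fun t => fourier n t := by
  filter_upwards [coeFn_mulF n simpOne, simp_memLp_one.coeFn_toLp] with t h1 h2
  rw [h1]
  have h3 : (simpOne : 𝕋 → ℂ) t = 1 := h2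
  rw [h3, mul_one]

private theorem simp_inner (n : ℤ) (g : LT) :
    (inner ℂ (mulF n simpOne) g : ℂ) = fourierCoeff (g : 𝕋 → ℂ) n := by
  rw [L2.inner_def]
  unfold fourierCoeff
  apply integral_congr_ae
  filter_upwards [simp_coe_mulF_one n] with t ht
  rw [ht, RCLike.inner_apply', fourier_neg, smul_eq_mul]

private theorem simp_zero (g : LT) (h : ∀ n : ℤ, (inner ℂ (mulF n simpOne) g : ℂ) = 0) :
    g = 0 := by
  have h1 := hasSum_sq_coeff (g : 𝕋 → ℂ) (Lp.memLp g)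
  have h2 : (fun l : ℤ => ‖fourierCoeff (g : 𝕋 → ℂ) l‖ ^ 2) = fun _ => 0 := by
    funext l
    rw [← simp_inner, h l, norm_zero]
    norm_num
  rw [h2] at h1
  have h3 := h1.unique hasSum_zero
  have h4 : (inner ℂ g g : ℂ) = 0 := by
    rw [L2.inner_def]
    have h5 : ∫ t, (inner ℂ (g t) (g t) : ℂ) ∂mT = ((∫ t, ‖g t‖ ^ 2 ∂mT : ℝ) : ℂ) := by
      rw [← integral_complex_ofReal]
      congr 1
      funext t
      rw [inner_self_eq_norm_sq_to_K]
      push_cast
      rfl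
    rw [h5, h3, Complex.ofReal_zero]
  exact inner_self_eq_zero.1 h4

private theorem simp_tendsto (g : LT) :
    Tendsto (fun n : ℕ => (inner ℂ g (mulF n simpOne) : ℂ)) atTop (𝓝 0) := by
  have h1 := tendsto_fourier_L2 (fun t => conj (g t)) ((Lp.memLp g).star)
  refine h1.congr fun n => ?_
  rw [L2.inner_def]
  apply integral_congr_ae
  filter_upwards [simp_coe_mulF_one n] with t ht
  rw [ht, RCLike.inner_apply', mul_comm]

private theorem simp_V_iter (V : LT →ₗᵢ[ℂ] B.H2) (hV : ∀ x, V (mulF 1 x) = B.U2 (V x)) (n : ℕ)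
    (x : LT) : B.U2^[n] (V x) = V (mulF n x) := by
  induction n with
  | zero => rw [Function.iterate_zero, id, Nat.cast_zero, mulF_zero]
  | succ n ih =>
    rw [Function.iterate_succ_apply', ih, ← hV, ← mulF_add, Nat.cast_succ, add_comm]

private theorem simp_inner_iter {H : Type*} [NormedAddCommGroup H] [InnerProductSpace ℂ H]
    (U : H →ₗᵢ[ℂ] H) (n : ℕ) (x y : H) :
    (inner ℂ (U^[n] x) (U^[n] y) : ℂ) = inner ℂ x y := by
  induction n with
  | zero => rfl
  | succ n ih =>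
    rw [Function.iterate_succ_apply', Function.iterate_succ_apply', U.inner_map_map, ih]

theorem exists_cyc2 (V : LT →ₗᵢ[ℂ] B.H2) (hV : ∀ x, V (mulF 1 x) = B.U2 (V x))
    (hR : ∀ f : B.H2, f ∈ B.Ho ↔ ∃ x, V x = f) : ∃ v : B.H2, ∀ f : B.H2,
      (∀ n : ℕ, (inner ℂ f (B.U2^[n] v) : ℂ) = 0 ∧ (inner ℂ (B.U2^[n] f) v : ℂ) = 0) → f = 0 := by
  obtain ⟨w, hw⟩ : ∃ w : ℕ → B.H2, ∀ j, w j = B.ef (Nat.unpair j).1 (Nat.unpair j).2 :=
    ⟨_, fun _ => rfl⟩
  obtain ⟨lam, hlam⟩ : ∃ lam : ℕ → ℂ, ∀ j, lam j = B.ev (Nat.unpair j).1 (Nat.unpair j).2 :=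
    ⟨_, fun _ => rfl⟩
  have hwU : ∀ j, B.U2 (w j) = lam j • w j := by
    intro j
    rw [hw, hlam, B.U2_ef]
  have hwn : ∀ j, ‖w j‖ = 1 := by
    intro j
    rw [hw, B.norm_ef]
  have heq : ∀ i j, lam i = lam j → w i = w j := by
    intro i j hij
    rw [hlam, hlam] at hij
    rw [hw, hw]
    exact B.ef_eq_of_ev _ _ _ _ hij
  obtain ⟨v2, hv2⟩ : ∃ v2 : B.H2, v2 = ∑' j, (((1 / 2 : ℝ) ^ j : ℝ) : ℂ) • w j := ⟨_, rfl⟩
  refine ⟨V simpOne + v2, fun f hf => ?_⟩
  obtain ⟨g, hg⟩ : ∃ g : LT, ∀ x, (inner ℂ (V x) f : ℂ) = inner ℂ x g := by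
    refine ⟨ContinuousLinearMap.adjoint V.toContinuousLinearMap f, fun x => ?_⟩
    rw [ContinuousLinearMap.adjoint_inner_right]
    rfl
  have hg' : ∀ x, (inner ℂ f (V x) : ℂ) = inner ℂ g x := by
    intro x
    rw [← inner_conj_symm, hg, inner_conj_symm]
  have hv0 : Tendsto (fun n : ℕ => (inner ℂ f (B.U2^[n] (V simpOne)) : ℂ)) atTop (𝓝 0) := by
    refine (simp_tendsto g).congr fun n => ?_
    rw [simp_V_iter B V hV, hg']
  have hfw : ∀ j, (inner ℂ f (w j) : ℂ) = 0 := by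
    refine simp_abs B.U2 f (V simpOne) w lam hwU hwn heq hv0 fun n => ?_
    rw [← hv2]
    exact (hf n).1
  -- `f` is orthogonal to the even level vectors
  have hef : ∀ n k, (inner ℂ f (B.ef n k) : ℂ) = 0 := by
    intro n k
    have h1 := hfw (Nat.pair n k)
    rw [hw, Nat.unpair_pair] at h1
    exact h1
  have hev : ∀ n i, i < B.M n → (inner ℂ f (B.e2 false n i) : ℂ) = 0 := by
    intro n i hi
    have h1 := B.e2_mem_span_ef n i hi
    refine Submodule.span_induction (p := fun x _ => (inner ℂ f x : ℂ) = 0) ?_ ?_ ?_ ?_ h1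
    · rintro x ⟨k, _, rfl⟩
      exact hef n k
    · exact inner_zero_right f
    · intro x y _ _ hx hy
      rw [inner_add_right, hx, hy, add_zero]
    · intro a x _ hx
      rw [inner_smul_right, hx, mul_zero]
  -- `f` is orthogonal to the range of `V`
  have hadd : ∀ n : ℕ, ∀ x y : B.H2, B.U2^[n] (x + y) = B.U2^[n] x + B.U2^[n] y := fun n x y =>
    iterate_map_add B.U2 n x y
  have hlw : ∀ n j, B.U2^[n] (w j) = (lam j) ^ n • w j := by
    intro n j
    induction n with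
    | zero => rw [Function.iterate_zero, id, pow_zero, one_smul]
    | succ n ih =>
      rw [Function.iterate_succ_apply', ih, map_smul, hwU, smul_smul, ← pow_succ]
  have hl1 : ∀ j, ‖lam j‖ = 1 := fun j => simp_norm_lam B.U2 (hwU j) (hwn j)
  have hl0 : ∀ j, lam j ≠ 0 := by
    intro j h0
    have := hl1 j
    rw [h0, norm_zero] at this
    exact zero_ne_one this
  have hUfw : ∀ n j, (inner ℂ (B.U2^[n] f) (w j) : ℂ) = 0 := by
    intro n j
    have h1 := simp_inner_iter B.U2 n f (w j)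
    rw [hfw, hlw, inner_smul_right] at h1
    rcases mul_eq_zero.1 h1 with h2 | h2
    · exact absurd h2 (pow_ne_zero n (hl0 j))
    · exact h2
  have hsum0 : Summable fun j => (((1 / 2 : ℝ) ^ j : ℝ) : ℂ) • w j := by
    have h1 := simp_summable w hwn 0 lam hl1
    simpa using h1
  have hall : ∀ h : B.H2, (∀ j, (inner ℂ h (w j) : ℂ) = 0) → (inner ℂ h v2 : ℂ) = 0 := by
    intro h hh
    have h2 := (innerSL ℂ h).map_tsum hsum0
    simp only [innerSL_apply_apply] at h2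
    rw [hv2, h2]
    simp only [inner_smul_right, hh, mul_zero, tsum_zero]
  have hpos : ∀ n : ℕ, (inner ℂ f (V (mulF n simpOne)) : ℂ) = 0 := by
    intro n
    have h1 := (hf n).1
    rw [hadd, inner_add_right, simp_V_iter B V hV] at h1
    have h2 : (inner ℂ f (B.U2^[n] v2) : ℂ) = 0 := by
      rw [hv2, simp_iter B.U2 w lam hwU hwn n]
      have h3 := (innerSL ℂ f).map_tsum (simp_summable w hwn n lam hl1)
      simp only [innerSL_apply_apply] at h3
      rw [h3]
      simp only [inner_smul_right, hfw, mul_zero, tsum_zero]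
    rw [h2, add_zero] at h1
    exact h1
  have hneg : ∀ n : ℕ, (inner ℂ f (V (mulF (-(n : ℤ)) simpOne)) : ℂ) = 0 := by
    intro n
    have h1 := (hf n).2
    rw [inner_add_right, hall _ (hUfw n), add_zero] at h1
    have h2 : V simpOne = B.U2^[n] (V (mulF (-(n : ℤ)) simpOne)) := by
      rw [simp_V_iter B V hV, ← mulF_add, add_neg_cancel, mulF_zero]
    rw [h2, simp_inner_iter] at h1
    exact h1
  have hint : ∀ n : ℤ, (inner ℂ (mulF n simpOne) g : ℂ) = 0 := by
    intro n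
    rw [← hg, ← inner_conj_symm]
    rcases Int.eq_nat_or_neg n with ⟨m, rfl | rfl⟩
    · rw [hpos, map_zero]
    · rw [hneg, map_zero]
  have hg0 : g = 0 := simp_zero g hint
  have hodd : ∀ n i, i < B.M n → (inner ℂ f (B.e2 true n i) : ℂ) = 0 := by
    intro n i hi
    have h1 : B.e2 true n i ∈ B.Ho :=
      Submodule.le_topologicalClosure _ (Submodule.subset_span ⟨n, i, hi, rfl⟩)
    obtain ⟨x, hx⟩ := (hR _).1 h1
    rw [← hx, hg', hg0, inner_zero_left]
  -- density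
  have hK : (Submodule.span ℂ {f : B.H2 | ∃ (κ : Bool) (n i : ℕ), i < B.M n ∧
      f = B.e2 κ n i}).topologicalClosure ≤ LinearMap.ker (innerSL ℂ f : B.H2 →ₗ[ℂ] ℂ) := by
    refine Submodule.topologicalClosure_minimal _ ?_ (innerSL ℂ f).isClosed_ker
    rw [Submodule.span_le]
    rintro x ⟨κ, n, i, hi, rfl⟩
    rw [SetLike.mem_coe, LinearMap.mem_ker]
    change (inner ℂ f (B.e2 κ n i) : ℂ) = 0
    cases κ
    · exact hev n i hi
    · exact hodd n i hi
  rw [B.dense_e2] at hK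
  have h1 : f ∈ LinearMap.ker (innerSL ℂ f : B.H2 →ₗ[ℂ] ℂ) := hK trivial
  rw [LinearMap.mem_ker] at h1
  exact inner_self_eq_zero.1 h1

end Blk

end P130
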