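import Vale.Agent.Lib.P130.Morse.GG
import Vale.Agent.Lib.P130.Morse.Iso2
import Vale.Agent.Lib.P130.Morse.Erg2
import Vale.Agent.Lib.P130.Morse.Simp

/-!
# P130 Morse: the final theorem (from flat polynomials)
-/

open MeasureTheory Filter Topology
open scoped ENNReal ComplexConjugate

namespace P130

theorem main_morse (h : FlatHyp) : ∃ (Y : Type) (_ : MeasurableSpace Y) (_ : StandardBorelSpace Y)
    (μ : Measure Y) (_ : IsProbabilityMeasure μ) (_ : NullSingletonClass μ) (T : Y ≃ᵐ Y)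
    (hT : MeasurePreserving T μ μ), Ergodic T μ ∧
    (∃ v : Lp ℂ 2 μ, ∀ f : Lp ℂ 2 μ,
      (∀ n : ℕ, inner ℂ f ((Lp.compMeasurePreserving T hT)^[n] v) = 0 ∧
        inner ℂ ((Lp.compMeasurePreserving T hT)^[n] f) v = 0) → f = 0) ∧
    ∃ V : Lp ℂ 2 (AddCircle.haarAddCircle (T := 1)) →ₗᵢ[ℂ] Lp ℂ 2 μ,
      (∀ g g' : Lp ℂ 2 (AddCircle.haarAddCircle (T := 1)),
        ((g' : AddCircle (1 : ℝ) → ℂ) =ᵐ[AddCircle.haarAddCircle] fun t => fourier 1 t * g t) →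
          V g' = Lp.compMeasurePreserving T hT (V g)) ∧
      (∀ g, ∫ y, V g y ∂μ = 0) ∧
      (∀ f : Lp ℂ 2 μ, (∀ g, inner ℂ (V g) f = 0) →
        (∀ (c : ℂ) (φ : Lp ℂ 2 μ), Lp.compMeasurePreserving T hT φ = c • φ → inner ℂ φ f = 0) →
        f = 0) := by
  obtain ⟨B, hs⟩ := exists_blk h
  obtain ⟨g, h1, h2, h3⟩ := B.exists_g hs
  obtain ⟨V, hV, hR⟩ := B.exists_V2 g h1 h2 h3
  refine ⟨B.Y2, inferInstance, inferInstance, B.mu2, inferInstance, inferInstance, B.T2e,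
    B.measurePreserving_T2, B.ergodic_T2 V hV hR, B.exists_cyc2 V hV hR, V, ?_, ?_, ?_⟩
  · intro g g' hg
    have h1 : g' = mulF 1 g := by
      apply Lp.ext
      exact hg.trans (coeFn_mulF 1 g).symm
    rw [h1, hV]
    rfl
  · exact B.integral_V V hR
  · intro f hf1 hf2
    exact B.eq_zero_of_orth2 V hR f hf1 (fun c φ hφ => hf2 c φ hφ)

end P130
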