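import Vale.Agent.Lib.P130.Morse.Defs

/-!
# P130 Morse: coefficients of dilated functions
-/

open MeasureTheory Filter Topology
open scoped ENNReal ComplexConjugate

namespace P130

/-- translation by `1/M`: the coefficients at frequencies not divisible by `M` vanish -/
theorem integral_fourier_dil (M : ℕ) (hM : 0 < M) (h : 𝕋 → ℂ) (k : ℤ) (hk : ¬ (M : ℤ) ∣ k) :
    ∫ t, fourier k t * h (M • t) ∂mT = 0 := by
  have hM' : (M : ℝ) ≠ 0 := by positivity
  set a : 𝕋 := (((1 / (M : ℝ) : ℝ)) : 𝕋) with ha
  have hMa : M • a = 0 := by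
    rw [ha, ← AddCircle.coe_nsmul, AddCircle.coe_eq_zero_iff]
    refine ⟨1, ?_⟩
    rw [nsmul_eq_mul, one_smul]
    field_simp
  have hadd : ∀ t : 𝕋, (fourier k (t + a) : ℂ) = fourier k a * fourier k t := by
    intro t
    rw [fourier_apply, fourier_apply, fourier_apply, smul_add, AddCircle.toCircle_add,
      mul_comm, Circle.coe_mul]
  have hne : (fourier k a : ℂ) ≠ 1 := by
    intro h1
    rw [fourier_apply] at h1
    have h2 : AddCircle.toCircle (k • a : 𝕋) = 1 := by
      apply Circle.ext
      rw [h1]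
      rfl
    rw [← AddCircle.toCircle_zero] at h2
    have h3 : (k • a : 𝕋) = 0 := AddCircle.injective_toCircle one_ne_zero h2
    rw [ha, ← AddCircle.coe_zsmul, AddCircle.coe_eq_zero_iff] at h3
    obtain ⟨n, hn⟩ := h3
    rw [zsmul_eq_mul, zsmul_eq_mul, mul_one] at hn
    apply hk
    refine ⟨n, ?_⟩
    have h4 : (M : ℝ) * n = k := by
      rw [hn]
      field_simp
    exact_mod_cast h4.symm
  have hI : ∫ t, fourier k t * h (M • t) ∂mT = fourier k a * ∫ t, fourier k t * h (M • t) ∂mT := by
    rw [← integral_const_mul]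
    calc ∫ t, fourier k t * h (M • t) ∂mT
        = ∫ t, fourier k (t + a) * h (M • (t + a)) ∂mT :=
          (integral_add_right_eq_self (fun t => fourier k t * h (M • t)) a).symm
      _ = _ := by
          refine integral_congr_ae (Eventually.of_forall fun t => ?_)
          simp only [hadd, smul_add, hMa, add_zero]
          ring
  have h5 : (1 - (fourier k a : ℂ)) * ∫ t, fourier k t * h (M • t) ∂mT = 0 := by
    rw [sub_mul, one_mul, sub_eq_zero]
    exact hI
  rcases mul_eq_zero.1 h5 with h6 | h6
  · exact absurd (sub_eq_zero.1 h6).symm hne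
  · exact h6

private theorem TrigB_int_ne (k : ℤ) (hk : k ≠ 0) : ∫ t, (fourier k t : ℂ) ∂mT = 0 := by
  have h1 := integral_fourier_dil (k.natAbs + 1) (Nat.succ_pos _) (fun _ => 1) k (by
    intro h2
    rw [Int.natCast_dvd] at h2
    have h3 := Nat.le_of_dvd (Int.natAbs_pos.2 hk) h2
    omega)
  simpa using h1

private theorem TrigB_integrable {f : 𝕋 → ℂ} (hf : Continuous f) : Integrable f mT :=
  hf.integrable_of_hasCompactSupport (HasCompactSupport.of_compactSpace f)

/-- `∫ |P|² = N` -/
theorem integral_PT_sq (N : ℕ) (b : ℕ → ℤˣ) : ∫ t, ‖PT N b t‖ ^ 2 ∂mT = N := by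
  have hpt : ∀ t : 𝕋, ((‖PT N b t‖ ^ 2 : ℝ) : ℂ)
      = ∑ j ∈ Finset.range N, ∑ l ∈ Finset.range N,
        (((b j : ℤ) : ℂ) * ((b l : ℤ) : ℂ)) * fourier ((j : ℤ) - (l : ℤ)) t := by
    intro t
    rw [← Complex.normSq_eq_norm_sq, ← Complex.mul_conj, PT, map_sum, Finset.sum_mul_sum]
    refine Finset.sum_congr rfl fun j _ => Finset.sum_congr rfl fun l _ => ?_
    rw [map_mul, map_intCast, ← fourier_neg, sub_eq_add_neg, fourier_add]
    ring
  have hreal : ((∫ t, ‖PT N b t‖ ^ 2 ∂mT : ℝ) : ℂ) = (N : ℂ) := by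
    rw [← integral_complex_ofReal]
    simp_rw [hpt]
    rw [integral_finsetSum]
    · have h1 : ∀ j ∈ Finset.range N, ∫ t, ∑ l ∈ Finset.range N,
          (((b j : ℤ) : ℂ) * ((b l : ℤ) : ℂ)) * fourier ((j : ℤ) - (l : ℤ)) t ∂mT = 1 := by
        intro j hj
        rw [integral_finsetSum]
        · rw [Finset.sum_eq_single_of_mem j hj]
          · rw [sub_self]
            have hb : ((b j : ℤ) : ℂ) * ((b j : ℤ) : ℂ) = 1 := by
              rw [← Int.cast_mul, ← Units.val_mul, Int.units_mul_self]
              simp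
            simp [hb]
          · intro l _ hl
            rw [integral_const_mul, TrigB_int_ne _ (by
              intro h0
              apply hl
              omega), mul_zero]
        · intro l _
          exact TrigB_integrable (by fun_prop)
      rw [Finset.sum_congr rfl h1]
      simp
    · intro j _
      exact TrigB_integrable (by fun_prop)
  exact_mod_cast hreal

end P130
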