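import Vale.Agent.Lib.P130.Morse.Defs3
import Vale.Agent.Lib.P130.Morse.Trig

/-!
# P130 Morse: blocks from flat polynomials
-/

open MeasureTheory Filter Topology
open scoped ENNReal ComplexConjugate

namespace P130

/-- blocks from flat polynomials -/
theorem exists_blk (h : FlatHyp) : ∃ B : Blk, Summable B.er := by
  have h1 : ∀ n : ℕ, ∃ (N : ℕ) (b : ℕ → ℤˣ), 2 ≤ N ∧
      ∫ t, |‖PT N b t‖ ^ 2 / N - 1| ∂mT ≤ (1 / 2 : ℝ) ^ n := fun n => h _ (by positivity)
  choose N b hN hb using h1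
  refine ⟨⟨N, hN, fun _ _ => 0, b⟩, ?_⟩
  refine Summable.of_nonneg_of_le (fun n => ?_) (fun n => ?_) summable_geometric_two
  · exact integral_nonneg fun t => abs_nonneg _
  · exact hb n

end P130
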