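import Vale.Agent.Lib.P130.Morse.Rho

/-!
# P130 Morse: the functions g_n with |g_n|^2 = rho_n
-/

open MeasureTheory Filter Topology
open scoped ENNReal ComplexConjugate

namespace P130

private lemma GGA_coeFn_sum (s : Finset ℕ) (c : ℕ → ℂ) (k : ℕ → ℤ) (h : LT) :
    ((∑ j ∈ s, c j • mulF (k j) h : LT) : 𝕋 → ℂ) =ᵐ[mT]
      fun t => ∑ j ∈ s, c j * (fourier (k j) t * h t) := by
  classical
  induction s using Finset.induction_on with
  | empty =>
    simp only [Finset.sum_empty]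
    exact Lp.coeFn_zero ℂ 2 mT
  | insert a s ha ih =>
    rw [Finset.sum_insert ha]
    filter_upwards [Lp.coeFn_add (c a • mulF (k a) h) (∑ j ∈ s, c j • mulF (k j) h), ih,
      Lp.coeFn_smul (c a) (mulF (k a) h), coeFn_mulF (k a) h] with t e1 e2 e3 e4
    rw [e1, Pi.add_apply, e2, e3, Pi.smul_apply, e4, Finset.sum_insert ha, smul_eq_mul]

private lemma GGA_fourier_dil (j M : ℕ) (t : 𝕋) :
    (fourier (j : ℤ) (M • t) : ℂ) = fourier ((j * M : ℕ) : ℤ) t := by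
  rw [fourier_apply, fourier_apply]
  congr 2
  rw [natCast_zsmul, natCast_zsmul, mul_smul]

namespace Blk

variable (B : Blk)

/-- the normalised factor -/
private noncomputable def GGA_PP (n : ℕ) (t : 𝕋) : ℂ :=
  PT (B.m n) (B.s n) (B.M n • t) / (Real.sqrt (B.m n) : ℂ)

private lemma GGA_sqrt_ne (n : ℕ) : (Real.sqrt (B.m n) : ℂ) ≠ 0 := by
  have : (0 : ℝ) < B.m n := by exact_mod_cast B.m_pos n
  exact_mod_cast (Real.sqrt_pos.2 this).ne'

private lemma GGA_PP_norm_sq (n : ℕ) (t : 𝕋) : ‖B.GGA_PP n t‖ ^ 2 = B.Qf n t := by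
  unfold GGA_PP Qf
  rw [norm_div, div_pow, Complex.norm_real, Real.norm_of_nonneg (Real.sqrt_nonneg _),
    Real.sq_sqrt (Nat.cast_nonneg _)]

private lemma GGA_PP_eq (n : ℕ) (t : 𝕋) : B.GGA_PP n t =
    ∑ j ∈ Finset.range (B.m n), B.cf true n j * fourier ((j * B.M n : ℕ) : ℤ) t := by
  unfold GGA_PP PT cf chi
  rw [Finset.sum_div]
  refine Finset.sum_congr rfl fun j _ => ?_
  rw [GGA_fourier_dil, if_pos rfl]
  ring

private lemma GGA_PP_cont (n : ℕ) : Continuous (B.GGA_PP n) := by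
  have : B.GGA_PP n = fun t => ∑ j ∈ Finset.range (B.m n),
      B.cf true n j * fourier ((j * B.M n : ℕ) : ℤ) t := by
    ext t
    exact B.GGA_PP_eq n t
  rw [this]
  fun_prop

private lemma GGA_PP_ne (n : ℕ) : ∀ᵐ t ∂mT, B.GGA_PP n t ≠ 0 := by
  filter_upwards [PT_ae_ne (B.m n) (B.m_pos n) (B.s n) (B.M n) (B.M_pos n)] with t ht
  exact div_ne_zero ht (B.GGA_sqrt_ne n)

/-- the functions -/
private noncomputable def GGA_G (ρ : ℕ → 𝕋 → ℝ) : ℕ → 𝕋 → ℂ
  | 0, t => (Real.sqrt (ρ 0 t) : ℂ)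
  | n + 1, t => GGA_G ρ n t / B.GGA_PP n t

private lemma GGA_G_meas (ρ : ℕ → 𝕋 → ℝ) (hi : Integrable (ρ 0) mT) (n : ℕ) :
    AEStronglyMeasurable (B.GGA_G ρ n) mT := by
  induction n with
  | zero =>
    have h1 : AEMeasurable (fun t => (Real.sqrt (ρ 0 t) : ℂ)) mT :=
      Complex.measurable_ofReal.comp_aemeasurable
        (Real.continuous_sqrt.measurable.comp_aemeasurable hi.aemeasurable)
    exact h1.aestronglyMeasurable
  | succ n ih =>
    have h2 : AEMeasurable (fun t => B.GGA_G ρ n t / B.GGA_PP n t) mT :=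
      ih.aemeasurable.div (B.GGA_PP_cont n).measurable.aemeasurable
    exact h2.aestronglyMeasurable

private lemma GGA_G_norm (ρ : ℕ → 𝕋 → ℝ) (h0 : 0 ≤ᵐ[mT] ρ 0)
    (hr : ∀ n, ρ n =ᵐ[mT] fun t => B.Qf n t * ρ (n + 1) t) (n : ℕ) :
    ∀ᵐ t ∂mT, ‖B.GGA_G ρ n t‖ ^ 2 = ρ n t := by
  induction n with
  | zero =>
    filter_upwards [h0] with t ht
    change ‖(Real.sqrt (ρ 0 t) : ℂ)‖ ^ 2 = ρ 0 t
    rw [Complex.norm_real, Real.norm_of_nonneg (Real.sqrt_nonneg _), Real.sq_sqrt ht]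
  | succ n ih =>
    filter_upwards [ih, hr n, B.GGA_PP_ne n] with t h1 h2 h3
    change ‖B.GGA_G ρ n t / B.GGA_PP n t‖ ^ 2 = ρ (n + 1) t
    rw [norm_div, div_pow, h1, h2, B.GGA_PP_norm_sq]
    have h4 : B.Qf n t ≠ 0 := by
      rw [← B.GGA_PP_norm_sq]
      exact pow_ne_zero 2 (norm_ne_zero_iff.2 h3)
    field_simp

/-- `g_0 = √ρ_0`, `g_{n+1} = g_n √m_n / P_n(M_n t)` -/
theorem exists_g (hs : Summable B.er) : ∃ g : ℕ → LT,
    (∀ n, g n = ∑ j ∈ Finset.range (B.m n), B.cf true n j •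
      mulF ((j * B.M n : ℕ) : ℤ) (g (n + 1))) ∧
    (∀ n, Orthonormal ℂ (fun i : Fin (B.M n) => mulF ((i : ℕ) : ℤ) (g n))) ∧
    (∀ᵐ t ∂mT, g 0 t ≠ 0) := by
  obtain ⟨ρ, hi, h0, hl⟩ := B.exists_rho hs
  obtain ⟨hone, hco, hr⟩ := B.rho_props hs ρ hi hl
  have hne := B.rho_ne_zero hs ρ hi hl hr
  have hnorm := B.GGA_G_norm ρ (h0 0) hr
  have hmem : ∀ n, MemLp (B.GGA_G ρ n) 2 mT := by
    intro n
    rw [memLp_two_iff_integrable_sq_norm (B.GGA_G_meas ρ (hi 0) n)]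
    exact (hi n).congr ((hnorm n).mono fun t ht => ht.symm)
  have hcoe : ∀ n, (((hmem n).toLp _ : LT) : 𝕋 → ℂ) =ᵐ[mT] B.GGA_G ρ n :=
    fun n => (hmem n).coeFn_toLp
  refine ⟨fun n => (hmem n).toLp _, ?_, ?_, ?_⟩
  · intro n
    apply Lp.ext
    filter_upwards [hcoe n, hcoe (n + 1), B.GGA_PP_ne n,
      GGA_coeFn_sum (Finset.range (B.m n)) (B.cf true n) (fun j => ((j * B.M n : ℕ) : ℤ))
        ((hmem (n + 1)).toLp _)] with t e1 e2 e3 e4
    rw [e1, e4, e2]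
    have h5 : ∑ j ∈ Finset.range (B.m n), B.cf true n j *
        (fourier ((j * B.M n : ℕ) : ℤ) t * B.GGA_G ρ (n + 1) t) =
        B.GGA_PP n t * B.GGA_G ρ (n + 1) t := by
      rw [B.GGA_PP_eq, Finset.sum_mul]
      exact Finset.sum_congr rfl fun j _ => (mul_assoc _ _ _).symm
    rw [h5]
    change B.GGA_G ρ n t = B.GGA_PP n t * (B.GGA_G ρ n t / B.GGA_PP n t)
    field_simp
  · intro n
    have key : ∀ k : ℤ, inner ℂ ((hmem n).toLp _ : LT) (mulF k ((hmem n).toLp _)) =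
        ∫ t, fourier k t * (ρ n t : ℂ) ∂mT := by
      intro k
      rw [inner_mulF]
      apply integral_congr_ae
      filter_upwards [hcoe n, hnorm n] with t e1 e2
      rw [e1, ← e2]
      push_cast
      rfl
    rw [orthonormal_iff_ite]
    intro i j
    have h6 : mulF ((j : ℕ) : ℤ) ((hmem n).toLp _ : LT) =
        mulF ((i : ℕ) : ℤ) (mulF (((j : ℕ) : ℤ) - ((i : ℕ) : ℤ)) ((hmem n).toLp _)) := by
      rw [← mulF_add]
      congr 2
      ring
    rw [h6, LinearIsometry.inner_map_map, key]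
    split_ifs with hij
    · subst hij
      rw [sub_self]
      simp only [fourier_zero, one_mul]
      rw [integral_complex_ofReal, hone n]
      norm_num
    · refine hco n _ ?_
      intro hdvd
      have h7 : ((j : ℕ) : ℤ) - ((i : ℕ) : ℤ) ≠ 0 := by
        intro h8
        exact hij (Fin.ext (by omega))
      have h9 := Int.le_of_dvd (abs_pos.2 h7) ((dvd_abs _ _).2 hdvd)
      have h10 := i.2
      have h11 := j.2
      have h12 : |((j : ℕ) : ℤ) - ((i : ℕ) : ℤ)| < (B.M n : ℤ) := by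
        rw [abs_lt]
        constructor <;> omega
      omega
  · filter_upwards [hcoe 0, hne, h0 0] with t e1 e2 e3
    rw [e1]
    change (Real.sqrt (ρ 0 t) : ℂ) ≠ 0
    have : 0 < ρ 0 t := lt_of_le_of_ne e3 (Ne.symm e2)
    exact_mod_cast (Real.sqrt_pos.2 this).ne'

end Blk

end P130
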