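import Vale.Agent.Lib.P130.Morse.Space

/-!
# P130 Morse: the Koopman operator and the level vectors
-/

open MeasureTheory Filter Topology
open scoped ENNReal ComplexConjugate

namespace P130

namespace Blk

variable (B : Blk)

/-- the Hilbert space -/
abbrev H2 : Type := Lp ℂ 2 B.mu2

/-- the Koopman operator -/
noncomputable def U2 : B.H2 →ₗᵢ[ℂ] B.H2 :=
  Lp.compMeasurePreservingₗᵢ ℂ B.T2 B.measurePreserving_T2

theorem coeFn_U2 (f : B.H2) : (B.U2 f : B.Y2 → ℂ) =ᵐ[B.mu2] fun y => f (B.T2 y) :=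
  Lp.coeFn_compMeasurePreserving f B.measurePreserving_T2

theorem measurable_E2 (κ : Bool) (n i : ℕ) : Measurable (B.E2 κ n i) := by
  unfold E2
  refine Measurable.ite ?_ ?_ measurable_const
  · exact (B.measurable_idx n).comp measurable_fst (measurableSet_singleton i)
  · exact measurable_const.mul ((measurable_of_finite (chi κ)).comp
      (measurable_snd.const_mul (B.A n i).2))

theorem norm_chi (κ : Bool) (u : ℤˣ) : ‖chi κ u‖ = 1 := by
  unfold chi
  cases κ
  · simp
  · rcases Int.units_eq_one_or u with h | h <;> simp [h]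

theorem chi_mul (κ : Bool) (u v : ℤˣ) : chi κ (u * v) = chi κ u * chi κ v := by
  unfold chi
  cases κ
  · simp
  · simp

theorem conj_chi (κ : Bool) (u : ℤˣ) : conj (chi κ u) = chi κ u := by
  unfold chi
  cases κ
  · simp
  · simp

theorem norm_E2_le (κ : Bool) (n i : ℕ) (y : B.Y2) : ‖B.E2 κ n i y‖ ≤ Real.sqrt (B.M n) := by
  unfold E2
  split_ifs
  · rw [norm_mul, norm_chi, mul_one, Complex.norm_real, Real.norm_of_nonneg (Real.sqrt_nonneg _)]
  · rw [norm_zero]
    exact Real.sqrt_nonneg _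

theorem memLp_E2 (κ : Bool) (n i : ℕ) : MemLp (B.E2 κ n i) 2 B.mu2 :=
  MemLp.of_bound (B.measurable_E2 κ n i).aestronglyMeasurable _
    (Filter.Eventually.of_forall (B.norm_E2_le κ n i))

/-- `E2` as an element of `L²`. -/
noncomputable def e2 (κ : Bool) (n i : ℕ) : B.H2 := (B.memLp_E2 κ n i).toLp _

theorem coeFn_e2 (κ : Bool) (n i : ℕ) : (B.e2 κ n i : B.Y2 → ℂ) =ᵐ[B.mu2] B.E2 κ n i :=
  (B.memLp_E2 κ n i).coeFn_toLp

end Blk

end P130
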