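import Vale.Agent.Lib.P130.Morse.Riesz

/-!
# P130 Morse: consequences of the convergence
-/

open MeasureTheory Filter Topology
open scoped ENNReal ComplexConjugate

namespace P130

private theorem rb_int {f : 𝕋 → ℝ} (hf : Continuous f) : Integrable f mT := by
  have h := hf.continuousOn.integrableOn_compact (μ := mT) isCompact_univ
  rwa [integrableOn_univ] at h

private theorem rb_lim {R : ℕ → 𝕋 → ℝ} {ρ : 𝕋 → ℝ} (hR : ∀ k, Integrable (R k) mT)
    (hρ : Integrable ρ mT) (hl : Tendsto (fun k => ∫ t, |R k t - ρ t| ∂mT) atTop (𝓝 0))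
    (w : 𝕋 → ℂ) (hw : Continuous w) (C : ℝ) (hC : ∀ t, ‖w t‖ ≤ C) :
    Tendsto (fun k => ∫ t, w t * (R k t : ℂ) ∂mT) atTop (𝓝 (∫ t, w t * (ρ t : ℂ) ∂mT)) := by
  have hi : ∀ f : 𝕋 → ℝ, Integrable f mT → Integrable (fun t => w t * (f t : ℂ)) mT := by
    intro f hf
    exact (hf.ofReal (𝕜 := ℂ)).bdd_mul hw.aestronglyMeasurable (ae_of_all _ hC)
  rw [tendsto_iff_norm_sub_tendsto_zero]
  refine squeeze_zero (g := fun k => C * ∫ t, |R k t - ρ t| ∂mT) (fun k => norm_nonneg _) ?_
    (by simpa using hl.const_mul C)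
  intro k
  rw [← integral_sub (hi _ (hR k)) (hi _ hρ)]
  refine (norm_integral_le_integral_norm _).trans ?_
  rw [← integral_const_mul]
  refine integral_mono_of_nonneg (ae_of_all _ fun t => norm_nonneg _)
    ((((hR k).sub hρ).abs).const_mul C) (ae_of_all _ fun t => ?_)
  dsimp only [Pi.sub_apply]
  rw [← mul_sub, norm_mul, ← Complex.ofReal_sub, Complex.norm_real, Real.norm_eq_abs]
  exact mul_le_mul_of_nonneg_right (hC t) (abs_nonneg _)

private theorem rb_fourier (n : ℤ) (hn : n ≠ 0) : ∫ t : 𝕋, fourier n t ∂mT = 0 :=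
  integral_eq_zero_of_add_right_eq_neg (μ := mT) (fourier_add_half_inv_index hn one_pos)

private theorem rb_integrable_fourier (n : ℤ) : Integrable (fun t : 𝕋 => (fourier n t : ℂ)) mT := by
  have h := (map_continuous (fourier n : C(𝕋, ℂ))).continuousOn.integrableOn_compact (μ := mT)
    isCompact_univ
  rwa [integrableOn_univ] at h

private theorem rb_norm_fourier (n : ℤ) (t : 𝕋) : ‖(fourier n t : ℂ)‖ ≤ 1 := by
  rw [fourier_apply]
  exact le_of_eq (Circle.norm_coe _)

namespace Blk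

variable (B : Blk)

/-- consequences of the convergence -/
theorem rho_props (hs : Summable B.er) (ρ : ℕ → 𝕋 → ℝ) (hi : ∀ n, Integrable (ρ n) mT)
    (hl : ∀ n, Tendsto (fun k => ∫ t, |B.Rf n k t - ρ n t| ∂mT) atTop (𝓝 0)) :
    (∀ n, ∫ t, ρ n t ∂mT = 1) ∧
    (∀ n (l : ℤ), ¬ (B.M n : ℤ) ∣ l → ∫ t, fourier l t * (ρ n t : ℂ) ∂mT = 0) ∧
    (∀ n, ρ n =ᵐ[mT] fun t => B.Qf n t * ρ (n + 1) t) := by
  have hR : ∀ n k, Integrable (B.Rf n k) mT := fun n k => rb_int (B.continuous_Rf n k)
  refine ⟨fun n => ?_, fun n l hl' => ?_, fun n => ?_⟩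
  · have h1 := rb_lim (hR n) (hi n) (hl n) (fun _ => 1) continuous_const 1 (fun _ => by simp)
    have h2 : ∀ k, ∫ t, (1 : ℂ) * (B.Rf n k t : ℂ) ∂mT = 1 := by
      intro k
      simp only [one_mul]
      rw [integral_complex_ofReal, B.integral_Rf n k]
      simp
    rw [show (fun k => ∫ t, (1 : ℂ) * (B.Rf n k t : ℂ) ∂mT) = fun _ => 1 from funext h2] at h1
    simp only [one_mul] at h1
    rw [integral_complex_ofReal] at h1
    have h3 := tendsto_nhds_unique h1 tendsto_const_nhds
    exact_mod_cast h3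
  · have h1 := rb_lim (hR n) (hi n) (hl n) (fun t => fourier l t)
      (map_continuous (fourier l : C(𝕋, ℂ))) 1 (rb_norm_fourier l)
    have h2 : ∀ k, ∫ t, (fourier l t : ℂ) * (B.Rf n k t : ℂ) ∂mT = 0 := by
      intro k
      obtain ⟨c, -, hc, hc0⟩ := B.Rf_trig n k
      have e1 : ∀ t : 𝕋, (fourier l t : ℂ) * (B.Rf n k t : ℂ) =
          ∑ j ∈ Finset.Ioo (-(B.M (n + k) : ℤ)) (B.M (n + k)), c j * fourier (l + j) t := by
        intro t
        rw [hc t, Finset.mul_sum]
        refine Finset.sum_congr rfl fun j _ => ?_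
        rw [fourier_add]
        ring
      simp only [e1]
      rw [integral_finsetSum _ fun j _ => (rb_integrable_fourier (l + j)).const_mul (c j)]
      refine Finset.sum_eq_zero fun j _ => ?_
      rw [integral_const_mul]
      by_cases hj : l + j = 0
      · have h3 : ¬ (B.M n : ℤ) ∣ j := by
          intro h4
          apply hl'
          have h5 : l = -j := by omega
          rw [h5]
          exact (dvd_neg).2 h4
        rw [hc0 j h3, zero_mul]
      · rw [rb_fourier _ hj, mul_zero]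
    simp only [h2] at h1
    exact tendsto_nhds_unique h1 tendsto_const_nhds
  · obtain ⟨C, hC⟩ : ∃ C : ℝ, ∀ t, ‖B.Qf n t‖ ≤ C := by
      obtain ⟨C, hC⟩ := isCompact_univ.exists_bound_of_continuousOn
        (B.continuous_Qf n).continuousOn
      exact ⟨C, fun t => hC t (Set.mem_univ t)⟩
    have hQi : ∀ f : 𝕋 → ℝ, Integrable f mT → Integrable (fun t => B.Qf n t * f t) mT := by
      intro f hf
      exact hf.bdd_mul (B.continuous_Qf n).aestronglyMeasurable (ae_of_all _ hC)
    have hrec : ∀ k t, B.Rf n (k + 1) t = B.Qf n t * B.Rf (n + 1) k t := by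
      intro k t
      unfold Rf
      rw [Finset.prod_range_succ', mul_comm, Nat.add_zero]
      congr 1
      refine Finset.prod_congr rfl fun i _ => ?_
      rw [show n + (i + 1) = n + 1 + i by ring]
    have h1 : Tendsto (fun k => ∫ t, |B.Rf n (k + 1) t - ρ n t| ∂mT) atTop (𝓝 0) :=
      (hl n).comp (tendsto_add_atTop_nat 1)
    have h2 : Tendsto (fun k => C * ∫ t, |B.Rf (n + 1) k t - ρ (n + 1) t| ∂mT) atTop (𝓝 0) := by
      simpa using (hl (n + 1)).const_mul C
    have h3 : ∀ k, ∫ t, |ρ n t - B.Qf n t * ρ (n + 1) t| ∂mT ≤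
        (∫ t, |B.Rf n (k + 1) t - ρ n t| ∂mT) +
          C * ∫ t, |B.Rf (n + 1) k t - ρ (n + 1) t| ∂mT := by
      intro k
      have i1 : Integrable (fun t => |B.Rf n (k + 1) t - ρ n t|) mT :=
        ((hR n (k + 1)).sub (hi n)).abs
      have i2 : Integrable (fun t => |B.Rf (n + 1) k t - ρ (n + 1) t|) mT :=
        ((hR (n + 1) k).sub (hi (n + 1))).abs
      rw [← integral_const_mul, ← integral_add i1 (i2.const_mul C)]
      refine integral_mono ((hi n).sub (hQi _ (hi (n + 1)))).abs (i1.add (i2.const_mul C))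
        fun t => ?_
      dsimp only [Pi.add_apply]
      have e1 : ρ n t - B.Qf n t * ρ (n + 1) t = -(B.Rf n (k + 1) t - ρ n t) +
          B.Qf n t * (B.Rf (n + 1) k t - ρ (n + 1) t) := by
        rw [hrec]
        ring
      rw [e1]
      refine (abs_add_le _ _).trans ?_
      rw [abs_neg, abs_mul]
      have h4 : |B.Qf n t| ≤ C := by
        have := hC t
        rwa [Real.norm_eq_abs] at this
      exact add_le_add le_rfl (mul_le_mul_of_nonneg_right h4 (abs_nonneg _))
    have h4 : ∫ t, |ρ n t - B.Qf n t * ρ (n + 1) t| ∂mT ≤ 0 := by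
      have h5 := h1.add h2
      rw [add_zero] at h5
      exact ge_of_tendsto h5 (Eventually.of_forall h3)
    have h5 : ∫ t, |ρ n t - B.Qf n t * ρ (n + 1) t| ∂mT = 0 :=
      le_antisymm h4 (integral_nonneg fun t => abs_nonneg _)
    have h7 := (integral_eq_zero_iff_of_nonneg
      (f := fun t => |ρ n t - B.Qf n t * ρ (n + 1) t|) (fun t => abs_nonneg _)
      ((hi n).sub (hQi _ (hi (n + 1)))).abs).1 h5
    filter_upwards [h7] with t ht
    have h6 : ρ n t - B.Qf n t * ρ (n + 1) t = 0 := abs_eq_zero.1 ht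
    linarith

end Blk

end P130
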