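import Vale.Agent.Lib.P130.Morse.Riesz

/-!
# P130 Morse: positivity of the limit
-/

open MeasureTheory Filter Topology
open scoped ENNReal ComplexConjugate

namespace P130

namespace Blk

variable (B : Blk)

private theorem er_nonneg (n : ℕ) : 0 ≤ B.er n :=
  integral_nonneg fun _ => abs_nonneg _

private theorem integrable_Rf (n k : ℕ) : Integrable (B.Rf n k) mT :=
  (B.continuous_Rf n k).integrable_of_hasCompactSupport
    (HasCompactSupport.of_compactSpace _)

private theorem int_Rf_sub_one (n k : ℕ) :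
    ∫ t, |B.Rf n k t - 1| ∂mT ≤ ∑ i ∈ Finset.range k, B.er (n + i) := by
  induction k with
  | zero => simp [Rf]
  | succ k ih =>
    rw [Finset.sum_range_succ, ← B.integral_Rf_diff n k]
    have h1 : Integrable (fun t => |B.Rf n k t - 1|) mT :=
      ((B.integrable_Rf n k).sub (integrable_const 1)).abs
    have h2 : Integrable (fun t => |B.Rf n (k + 1) t - B.Rf n k t|) mT :=
      ((B.integrable_Rf n (k + 1)).sub (B.integrable_Rf n k)).abs
    have h3 : Integrable (fun t => |B.Rf n (k + 1) t - 1|) mT :=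
      ((B.integrable_Rf n (k + 1)).sub (integrable_const 1)).abs
    calc ∫ t, |B.Rf n (k + 1) t - 1| ∂mT
        ≤ ∫ t, (|B.Rf n k t - 1| + |B.Rf n (k + 1) t - B.Rf n k t|) ∂mT := by
          apply integral_mono h3 (h1.add h2)
          intro t
          have : B.Rf n (k + 1) t - 1 = (B.Rf n k t - 1) + (B.Rf n (k + 1) t - B.Rf n k t) := by
            ring
          change |B.Rf n (k + 1) t - 1| ≤ |B.Rf n k t - 1| + |B.Rf n (k + 1) t - B.Rf n k t|
          rw [this]
          exact abs_add_le _ _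
      _ = ∫ t, |B.Rf n k t - 1| ∂mT + ∫ t, |B.Rf n (k + 1) t - B.Rf n k t| ∂mT :=
          integral_add h1 h2
      _ ≤ _ := add_le_add ih le_rfl

private theorem int_rho_sub_one (hs : Summable B.er) (ρ : ℕ → 𝕋 → ℝ)
    (hi : ∀ n, Integrable (ρ n) mT)
    (hl : ∀ n, Tendsto (fun k => ∫ t, |B.Rf n k t - ρ n t| ∂mT) atTop (𝓝 0)) (n : ℕ) :
    ∫ t, |ρ n t - 1| ∂mT ≤ ∑' i, B.er (i + n) := by
  have key : ∀ k, ∫ t, |ρ n t - 1| ∂mT ≤
      ∑' i, B.er (i + n) + ∫ t, |B.Rf n k t - ρ n t| ∂mT := by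
    intro k
    have h1 : Integrable (fun t => |B.Rf n k t - 1|) mT :=
      ((B.integrable_Rf n k).sub (integrable_const 1)).abs
    have h2 : Integrable (fun t => |B.Rf n k t - ρ n t|) mT :=
      ((B.integrable_Rf n k).sub (hi n)).abs
    have h3 : Integrable (fun t => |ρ n t - 1|) mT :=
      ((hi n).sub (integrable_const 1)).abs
    have hs' : Summable fun i => B.er (i + n) := (summable_nat_add_iff n).2 hs
    calc ∫ t, |ρ n t - 1| ∂mT
        ≤ ∫ t, (|B.Rf n k t - 1| + |B.Rf n k t - ρ n t|) ∂mT := by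
          apply integral_mono h3 (h1.add h2)
          intro t
          have : ρ n t - 1 = (B.Rf n k t - 1) - (B.Rf n k t - ρ n t) := by ring
          change |ρ n t - 1| ≤ |B.Rf n k t - 1| + |B.Rf n k t - ρ n t|
          rw [this]
          exact abs_sub _ _
      _ = ∫ t, |B.Rf n k t - 1| ∂mT + ∫ t, |B.Rf n k t - ρ n t| ∂mT :=
          integral_add h1 h2
      _ ≤ ∑' i, B.er (i + n) + ∫ t, |B.Rf n k t - ρ n t| ∂mT := by
          refine add_le_add ?_ le_rfl
          refine (B.int_Rf_sub_one n k).trans ?_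
          have h4 : ∑ i ∈ Finset.range k, B.er (n + i) = ∑ i ∈ Finset.range k, B.er (i + n) :=
            Finset.sum_congr rfl fun i _ => by rw [add_comm]
          rw [h4]
          exact hs'.sum_le_tsum _ fun i _ => B.er_nonneg _
  have hlim : Tendsto (fun k => ∑' i, B.er (i + n) + ∫ t, |B.Rf n k t - ρ n t| ∂mT) atTop
      (𝓝 (∑' i, B.er (i + n) + 0)) := tendsto_const_nhds.add (hl n)
  rw [add_zero] at hlim
  exact ge_of_tendsto' hlim key

private theorem ae_Qf_ne (n : ℕ) : ∀ᵐ t ∂mT, B.Qf n t ≠ 0 := by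
  have hM : 0 < B.M n := Finset.prod_pos fun i _ => B.m_pos i
  filter_upwards [PT_ae_ne (B.m n) (B.m_pos n) (B.s n) (B.M n) hM] with t ht
  unfold Qf
  apply div_ne_zero
  · exact pow_ne_zero 2 (norm_ne_zero_iff.2 ht)
  · exact_mod_cast (B.m_pos n).ne'

private theorem ae_rho_imp (ρ : ℕ → 𝕋 → ℝ)
    (hr : ∀ n, ρ n =ᵐ[mT] fun t => B.Qf n t * ρ (n + 1) t) (n : ℕ) :
    ∀ᵐ t ∂mT, ρ 0 t = 0 → ρ n t = 0 := by
  induction n with
  | zero => exact Filter.Eventually.of_forall fun t h => h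
  | succ n ih =>
    filter_upwards [ih, hr n, B.ae_Qf_ne n] with t h1 h2 h3 h0
    have h4 := h1 h0
    rw [h2] at h4
    exact (mul_eq_zero.1 h4).resolve_left h3

/-- positivity: `∫ |ρ_n - 1| ≤ ∑_{i ≥ n} er i → 0` and `ρ_0 = R_{0,n} ρ_n`, where `R_{0,n} ≠ 0` a.e. -/
theorem rho_ne_zero (hs : Summable B.er) (ρ : ℕ → 𝕋 → ℝ) (hi : ∀ n, Integrable (ρ n) mT)
    (hl : ∀ n, Tendsto (fun k => ∫ t, |B.Rf n k t - ρ n t| ∂mT) atTop (𝓝 0))
    (hr : ∀ n, ρ n =ᵐ[mT] fun t => B.Qf n t * ρ (n + 1) t) : ∀ᵐ t ∂mT, ρ 0 t ≠ 0 := by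
  have key : ∀ n, mT.real {t | ρ 0 t = 0} ≤ ∑' i, B.er (i + n) := by
    intro n
    refine le_trans ?_ (B.int_rho_sub_one hs ρ hi hl n)
    have h3 : Integrable (fun t => |ρ n t - 1|) mT :=
      ((hi n).sub (integrable_const 1)).abs
    have h4 := mul_meas_ge_le_integral_of_nonneg (μ := mT) (f := fun t => |ρ n t - 1|)
      (Filter.Eventually.of_forall fun t => abs_nonneg _) h3 1
    rw [one_mul] at h4
    refine le_trans ?_ h4
    apply ENNReal.toReal_mono (measure_ne_top _ _)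
    apply measure_mono_ae
    filter_upwards [B.ae_rho_imp ρ hr n] with t ht h0
    have h5 : ρ n t = 0 := ht h0
    change (1 : ℝ) ≤ |ρ n t - 1|
    rw [h5]
    norm_num
  have hlim : Tendsto (fun n => ∑' i, B.er (i + n)) atTop (𝓝 0) := tendsto_sum_nat_add B.er
  have h6 : mT.real {t | ρ 0 t = 0} ≤ 0 := ge_of_tendsto' hlim key
  have h7 : mT.real {t | ρ 0 t = 0} = 0 := le_antisymm h6 measureReal_nonneg
  have h8 : mT {t | ρ 0 t = 0} = 0 := by
    rwa [measureReal_eq_zero_iff] at h7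
  rw [ae_iff]
  simpa using h8

end Blk

end P130
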