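import Vale.Agent.Lib.P130.Morse.Riesz

/-!
# P130 Morse: existence of the limits
-/

open MeasureTheory Filter Topology
open scoped ENNReal ComplexConjugate

namespace P130

namespace Blk

variable (B : Blk)

private theorem rhoA_int (n k : ℕ) : Integrable (B.Rf n k) mT :=
  (B.continuous_Rf n k).integrable_of_hasCompactSupport (HasCompactSupport.of_compactSpace _)

private theorem rhoA_nonneg (n k : ℕ) (t : 𝕋) : 0 ≤ B.Rf n k t := by
  unfold Rf Qf
  exact Finset.prod_nonneg (fun i _ => by positivity)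

/-- the limit for one `n` -/
private theorem rhoA_one (hs : Summable B.er) (n : ℕ) : ∃ ρ : 𝕋 → ℝ, Integrable ρ mT ∧
    (0 ≤ᵐ[mT] ρ) ∧ Tendsto (fun k => ∫ t, |B.Rf n k t - ρ t| ∂mT) atTop (𝓝 0) := by
  set f : ℕ → (Lp ℝ 1 mT) := fun k => (B.rhoA_int n k).toL1 (B.Rf n k) with hf
  have hdist : ∀ k, dist (f k) (f k.succ) ≤ B.er (n + k) := by
    intro k
    rw [dist_comm, dist_eq_norm, hf]
    simp only
    rw [← Integrable.toL1_sub, L1.norm_of_fun_eq_integral_norm, ← B.integral_Rf_diff n k]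
    refine le_of_eq (integral_congr_ae (Eventually.of_forall (fun t => ?_)))
    simp [Real.norm_eq_abs]
  have hsum : Summable (fun k => B.er (n + k)) := by
    have h := (summable_nat_add_iff n).2 hs
    simpa [add_comm] using h
  have hc : CauchySeq f := cauchySeq_of_dist_le_of_summable _ hdist hsum
  obtain ⟨g, hg⟩ := cauchySeq_tendsto_of_complete hc
  have hlim : Tendsto (fun k => ∫ t, |B.Rf n k t - (g : 𝕋 → ℝ) t| ∂mT) atTop (𝓝 0) := by
    have h1 : Tendsto (fun k => ‖f k - g‖) atTop (𝓝 0) := by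
      rw [← tendsto_iff_norm_sub_tendsto_zero]
      exact hg
    refine h1.congr (fun k => ?_)
    rw [L1.norm_eq_integral_norm]
    refine integral_congr_ae ?_
    filter_upwards [Lp.coeFn_sub (f k) g, (B.rhoA_int n k).coeFn_toL1] with t h2 h3
    rw [h2]
    simp only [Pi.sub_apply]
    rw [hf]
    simp only
    rw [h3, Real.norm_eq_abs]
  refine ⟨g, L1.integrable_coeFn g, ?_, hlim⟩
  have hneg : ∫ t, max (-(g : 𝕋 → ℝ) t) 0 ∂mT ≤ 0 := by
    refine ge_of_tendsto' hlim (fun k => ?_)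
    refine integral_mono (L1.integrable_coeFn g).neg.pos_part
      (((B.rhoA_int n k).sub (L1.integrable_coeFn g)).abs) (fun t => ?_)
    have h2 := B.rhoA_nonneg n k t
    refine max_le ?_ (abs_nonneg _)
    exact le_trans (by linarith) (le_abs_self _)
  have hzero : ∫ t, max (-(g : 𝕋 → ℝ) t) 0 ∂mT = 0 :=
    le_antisymm hneg (integral_nonneg (fun t => le_max_right _ _))
  have hint : Integrable (fun t => max (-(g : 𝕋 → ℝ) t) 0) mT :=
    (L1.integrable_coeFn g).neg.pos_part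
  have hz2 := (integral_eq_zero_iff_of_nonneg (fun t => le_max_right _ _) hint).1 hzero
  filter_upwards [hz2] with t ht
  simp only [Pi.zero_apply] at ht ⊢
  have := le_max_left (-(g : 𝕋 → ℝ) t) 0
  linarith

/-- `L¹` limits `ρ_n` of the products `R_{n,k}`, `k → ∞` -/
theorem exists_rho (hs : Summable B.er) : ∃ ρ : ℕ → 𝕋 → ℝ, (∀ n, Integrable (ρ n) mT) ∧
    (∀ n, 0 ≤ᵐ[mT] ρ n) ∧
    (∀ n, Tendsto (fun k => ∫ t, |B.Rf n k t - ρ n t| ∂mT) atTop (𝓝 0)) := by
  choose ρ h1 h2 h3 using B.rhoA_one hs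
  exact ⟨ρ, h1, h2, h3⟩

end Blk

end P130
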