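import Vale.Agent.Lib.P130.Morse.RieszA

/-!
# P130 Morse: integrals of the Riesz products
-/

open MeasureTheory Filter Topology
open scoped ENNReal ComplexConjugate

namespace P130

namespace Blk

variable (B : Blk)

/-- independence: `∫ R_{n,k} h(M_{n+k} t) dt = ∫ h` -/
theorem integral_Rf_mul (n k : ℕ) (h : 𝕋 → ℂ) (hh : Integrable h mT) :
    ∫ t, (B.Rf n k t : ℂ) * h (B.M (n + k) • t) ∂mT = ∫ t, h t ∂mT := by
  obtain ⟨c, hc0, hc, -⟩ := B.Rf_trig n k
  have hM := B.M_pos (n + k)
  have hmp := measurePreserving_dil (B.M (n + k)) hM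
  have hcomp : Integrable (fun t : 𝕋 => h (B.M (n + k) • t)) mT := hmp.integrable_comp_of_integrable hh
  have hint : ∀ l : ℤ, Integrable (fun t : 𝕋 => fourier l t * h (B.M (n + k) • t)) mT := by
    intro l
    refine hcomp.bdd_mul (c := 1) ?_ ?_
    · exact (fourier l).continuous.aestronglyMeasurable
    · exact Eventually.of_forall fun t => by rw [fourier_apply, Circle.norm_coe]
  have h1 : ∀ t : 𝕋, (B.Rf n k t : ℂ) * h (B.M (n + k) • t) =
      ∑ l ∈ Finset.Ioo (-(B.M (n + k) : ℤ)) (B.M (n + k)),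
        c l * (fourier l t * h (B.M (n + k) • t)) := by
    intro t
    rw [hc, Finset.sum_mul]
    exact Finset.sum_congr rfl fun l _ => mul_assoc _ _ _
  simp only [h1]
  rw [integral_finsetSum _ fun l _ => (hint l).const_mul _]
  rw [Finset.sum_eq_single (0 : ℤ)]
  · rw [hc0]
    simp only [one_mul, fourier_zero]
    have h2 := integral_map (μ := mT) (φ := fun t : 𝕋 => B.M (n + k) • t) (f := h)
      hmp.measurable.aemeasurable (by rw [hmp.map_eq]; exact hh.aestronglyMeasurable)
    rw [hmp.map_eq] at h2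
    exact h2.symm
  · intro l hl hl0
    rw [integral_const_mul, integral_fourier_dil _ hM, mul_zero]
    intro hdvd
    rw [Finset.mem_Ioo] at hl
    have := Int.eq_zero_of_abs_lt_dvd hdvd (abs_lt.2 ⟨hl.1, hl.2⟩)
    exact hl0 this
  · intro h0
    exfalso
    apply h0
    rw [Finset.mem_Ioo]
    constructor
    · have : (0 : ℤ) < B.M (n + k) := by exact_mod_cast hM
      linarith
    · exact_mod_cast hM

theorem integral_Rf (n k : ℕ) : ∫ t, B.Rf n k t ∂mT = 1 := by
  have h := B.integral_Rf_mul n k (fun _ => 1) (integrable_const _)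
  simp only [mul_one] at h
  rw [integral_complex_ofReal] at h
  simp only [integral_const, probReal_univ, one_smul] at h
  exact_mod_cast h

/-- the increments in `L¹` -/
theorem integral_Rf_diff (n k : ℕ) :
    ∫ t, |B.Rf n (k + 1) t - B.Rf n k t| ∂mT = B.er (n + k) := by
  have hR0 : ∀ t, 0 ≤ B.Rf n k t := by
    intro t
    unfold Rf Qf
    exact Finset.prod_nonneg fun i _ => by positivity
  have h1 : ∀ t, |B.Rf n (k + 1) t - B.Rf n k t| = B.Rf n k t *
      |‖PT (B.m (n + k)) (B.s (n + k)) (B.M (n + k) • t)‖ ^ 2 / B.m (n + k) - 1| := by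
    intro t
    have h2 : B.Rf n (k + 1) t = B.Rf n k t * B.Qf (n + k) t := by
      unfold Rf
      rw [Finset.prod_range_succ]
    rw [h2, show B.Rf n k t * B.Qf (n + k) t - B.Rf n k t = B.Rf n k t * (B.Qf (n + k) t - 1) by
      ring, abs_mul, abs_of_nonneg (hR0 t)]
    rfl
  have hPc : Continuous fun t : 𝕋 => PT (B.m (n + k)) (B.s (n + k)) t := by
    unfold PT
    exact continuous_finsetSum _ fun j _ => continuous_const.mul (fourier (j : ℤ)).continuous
  have hc : Continuous fun t : 𝕋 =>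
      ((|‖PT (B.m (n + k)) (B.s (n + k)) t‖ ^ 2 / B.m (n + k) - 1| : ℝ) : ℂ) :=
    Complex.continuous_ofReal.comp ((((hPc.norm).pow 2).div_const _).sub continuous_const).abs
  have hi : Integrable (fun t : 𝕋 =>
      ((|‖PT (B.m (n + k)) (B.s (n + k)) t‖ ^ 2 / B.m (n + k) - 1| : ℝ) : ℂ)) mT :=
    hc.integrable_of_hasCompactSupport (HasCompactSupport.of_compactSpace _)
  have h := B.integral_Rf_mul n k _ hi
  have h3 : ∀ t : 𝕋, (B.Rf n k t : ℂ) *
      ((|‖PT (B.m (n + k)) (B.s (n + k)) (B.M (n + k) • t)‖ ^ 2 / B.m (n + k) - 1| : ℝ) : ℂ) =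
      ((|B.Rf n (k + 1) t - B.Rf n k t| : ℝ) : ℂ) := by
    intro t
    rw [h1, Complex.ofReal_mul]
  simp only [h3] at h
  rw [integral_complex_ofReal, integral_complex_ofReal] at h
  exact_mod_cast h

end Blk

end P130
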