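import Vale.Agent.Lib.P130.Morse.Defs3
import Vale.Agent.Lib.P130.Morse.Trig

/-!
# P130 Morse: the Riesz products as trigonometric polynomials
-/

open MeasureTheory Filter Topology
open scoped ENNReal ComplexConjugate

namespace P130

private theorem rz_PT_sq (N : ℕ) (b : ℕ → ℤˣ) (s : 𝕋) : ((‖PT N b s‖ ^ 2 : ℝ) : ℂ) =
    ∑ i ∈ Finset.range N, ∑ j ∈ Finset.range N,
      ((b i : ℤ) : ℂ) * ((b j : ℤ) : ℂ) * fourier ((i : ℤ) - j) s := by
  have h0 : ((‖PT N b s‖ ^ 2 : ℝ) : ℂ) = PT N b s * conj (PT N b s) := by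
    rw [Complex.mul_conj, Complex.normSq_eq_norm_sq]
  rw [h0]
  unfold PT
  rw [map_sum, Finset.sum_mul_sum]
  refine Finset.sum_congr rfl fun i _ => Finset.sum_congr rfl fun j _ => ?_
  rw [map_mul, sub_eq_add_neg, fourier_add, fourier_neg]
  simp only [map_intCast]
  ring

private theorem rz_dil (j : ℤ) (M : ℕ) (t : 𝕋) :
    (fourier j (M • t) : ℂ) = fourier (j * M) t := by
  rw [fourier_apply, fourier_apply, mul_smul, natCast_zsmul]

private theorem rz_collect {ι : Type} (I : Finset ι) (φ : ι → ℤ) (w : ι → ℂ) (S : Finset ℤ)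
    (h : ∀ p ∈ I, φ p ∈ S) (F : ℤ → ℂ) :
    ∑ p ∈ I, w p * F (φ p) = ∑ l ∈ S, (∑ p ∈ I with φ p = l, w p) * F l := by
  rw [← Finset.sum_fiberwise_of_maps_to h]
  refine Finset.sum_congr rfl fun l _ => ?_
  rw [Finset.sum_mul]
  refine Finset.sum_congr rfl fun p hp => ?_
  rw [(Finset.mem_filter.1 hp).2]

private theorem rz_unit_sq (u : ℤˣ) : ((u : ℤ) : ℂ) * ((u : ℤ) : ℂ) = 1 := by
  rcases Int.units_eq_one_or u with h | h <;> simp [h]

private theorem rz_continuous_PT (N : ℕ) (b : ℕ → ℤˣ) : Continuous (PT N b) := by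
  unfold PT
  exact continuous_finsetSum _ fun j _ => continuous_const.mul (fourier (j : ℤ)).continuous

namespace Blk

variable (B : Blk)

theorem continuous_Qf (n : ℕ) : Continuous (B.Qf n) := by
  unfold Qf
  exact (((rz_continuous_PT _ _).comp (continuous_nsmul _)).norm.pow 2).div_const _

theorem continuous_Rf (n k : ℕ) : Continuous (B.Rf n k) := by
  unfold Rf
  exact continuous_finsetProd _ fun i _ => B.continuous_Qf _

private theorem rz_Qf (n : ℕ) (t : 𝕋) : (B.Qf n t : ℂ) =
    ∑ q ∈ Finset.range (B.m n) ×ˢ Finset.range (B.m n),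
      (((B.s n q.1 : ℤ) : ℂ) * ((B.s n q.2 : ℤ) : ℂ) / (B.m n : ℂ)) *
        fourier (((q.1 : ℤ) - q.2) * B.M n) t := by
  unfold Qf
  rw [Complex.ofReal_div, rz_PT_sq, Finset.sum_product, Finset.sum_div]
  refine Finset.sum_congr rfl fun i _ => ?_
  rw [Finset.sum_div]
  refine Finset.sum_congr rfl fun j _ => ?_
  rw [rz_dil, Complex.ofReal_natCast]
  ring

/-- `R_{n,k}` is a trigonometric polynomial with frequencies divisible by `M_n`, of modulus
`< M_{n+k}`, and constant term `1` -/
theorem Rf_trig (n k : ℕ) : ∃ c : ℤ → ℂ, c 0 = 1 ∧ (∀ t : 𝕋, (B.Rf n k t : ℂ) =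
    ∑ l ∈ Finset.Ioo (-(B.M (n + k) : ℤ)) (B.M (n + k)), c l * fourier l t) ∧
    ∀ l, ¬ (B.M n : ℤ) ∣ l → c l = 0 := by
  induction k with
  | zero =>
    refine ⟨fun l => if l = 0 then 1 else 0, by simp, fun t => ?_, fun l hl => ?_⟩
    · rw [Finset.sum_eq_single (0 : ℤ)]
      · simp [Rf]
      · intro l _ hl
        simp [hl]
      · intro h
        exfalso
        apply h
        simpa using B.M_pos n
    · have : l ≠ 0 := by
        rintro rfl
        exact hl (dvd_zero _)
      simp [this]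
  | succ k ih =>
    obtain ⟨c, hc0, hct, hcd⟩ := ih
    set A : ℤ := (B.M (n + k) : ℤ) with hA
    set m : ℕ := B.m (n + k) with hm
    have hApos : 0 < A := by
      rw [hA]
      exact_mod_cast B.M_pos (n + k)
    have hmpos : 0 < m := B.m_pos (n + k)
    have hMs : (B.M (n + (k + 1)) : ℤ) = A * m := by
      rw [← add_assoc, B.M_succ]
      push_cast
      rfl
    have hMA : (B.M n : ℤ) ∣ A := by
      rw [hA]
      exact_mod_cast B.M_dvd (Nat.le_add_right n k)
    let I : Finset (ℤ × ℕ × ℕ) := Finset.Ioo (-A) A ×ˢ (Finset.range m ×ˢ Finset.range m)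
    let φ : ℤ × ℕ × ℕ → ℤ := fun p => p.1 + ((p.2.1 : ℤ) - p.2.2) * A
    let w : ℤ × ℕ × ℕ → ℂ := fun p => c p.1 *
      (((B.s (n + k) p.2.1 : ℤ) : ℂ) * ((B.s (n + k) p.2.2 : ℤ) : ℂ) / (m : ℂ))
    have hmaps : ∀ p ∈ I, φ p ∈ Finset.Ioo (-(A * m)) (A * m) := by
      rintro ⟨l, i, j⟩ hp
      simp only [I, Finset.mem_product, Finset.mem_Ioo, Finset.mem_range] at hp
      obtain ⟨⟨h1, h2⟩, h3, h4⟩ := hp
      simp only [φ, Finset.mem_Ioo]
      have h5 : (i : ℤ) - j ≤ m - 1 := by omega
      have h6 : -((m : ℤ) - 1) ≤ (i : ℤ) - j := by omega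
      constructor <;> nlinarith
    refine ⟨fun r => ∑ p ∈ I with φ p = r, w p, ?_, fun t => ?_, fun r hr => ?_⟩
    · -- the constant coefficient
      have hset : I.filter (fun p => φ p = 0) =
          (Finset.range m).image (fun i => ((0 : ℤ), i, i)) := by
        ext ⟨l, i, j⟩
        simp only [I, φ, Finset.mem_filter, Finset.mem_product, Finset.mem_Ioo,
          Finset.mem_range, Finset.mem_image, Prod.mk.injEq]
        constructor
        · rintro ⟨⟨⟨h1, h2⟩, h3, h4⟩, h5⟩
          have hij : (i : ℤ) - j = 0 := by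
            by_contra hne
            rcases lt_or_gt_of_ne hne with h | h
            · have : (i : ℤ) - j ≤ -1 := by omega
              nlinarith
            · have : 1 ≤ (i : ℤ) - j := by omega
              nlinarith
          have hl : l = 0 := by
            rw [hij] at h5
            simpa using h5
          refine ⟨i, h3, hl.symm, rfl, ?_⟩
          omega
        · rintro ⟨i', hi', rfl, rfl, rfl⟩
          refine ⟨⟨⟨by omega, hApos⟩, hi', hi'⟩, by simp⟩
      show ∑ p ∈ I with φ p = 0, w p = 1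
      rw [hset, Finset.sum_image (by intro a _ b _ h; simpa using h)]
      have hm0 : (m : ℂ) ≠ 0 := by exact_mod_cast hmpos.ne'
      simp only [w, hc0, rz_unit_sq, one_mul]
      rw [Finset.sum_const, Finset.card_range, nsmul_eq_mul]
      field_simp
    · rw [hMs, ← rz_collect I φ w _ hmaps (fun l => fourier l t)]
      have h1 : (B.Rf n (k + 1) t : ℂ) = (B.Rf n k t : ℂ) * (B.Qf (n + k) t : ℂ) := by
        rw [← Complex.ofReal_mul]
        congr 1
        unfold Rf
        rw [Finset.prod_range_succ]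
      rw [h1, hct, B.rz_Qf, Finset.sum_mul_sum]
      simp only [I]
      rw [Finset.sum_product]
      refine Finset.sum_congr rfl fun l _ => Finset.sum_congr rfl fun q _ => ?_
      simp only [w, φ]
      rw [fourier_add]
      ring
    · apply Finset.sum_eq_zero
      rintro ⟨l, i, j⟩ hp
      have h1 : l + ((i : ℤ) - j) * A = r := (Finset.mem_filter.1 hp).2
      have h2 : c l = 0 := by
        apply hcd
        intro h3
        apply hr
        rw [← h1]
        exact dvd_add h3 (Dvd.dvd.mul_left hMA _)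
      simp only [w, h2, zero_mul]

end Blk

end P130
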