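import Vale.Agent.Lib.P130.Morse.Defs

/-!
# P130 Morse: the measure-preserving system
-/

open MeasureTheory Filter Topology
open scoped ENNReal ComplexConjugate

namespace P130

namespace Blk

variable (B : Blk)

instance : IsProbabilityMeasure (mZ : Measure ℤˣ) := by
  constructor
  unfold mZ
  rw [Measure.smul_apply, Measure.count_apply MeasurableSet.univ, smul_eq_mul]
  have h : (Set.univ : Set ℤˣ).encard = 2 := by
    rw [Set.encard_univ, ENat.card_eq_coe_fintype_card]
    rfl
  rw [h]
  exact ENNReal.inv_mul_cancel (by norm_num) (by norm_num)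

instance : IsProbabilityMeasure B.mu2 := by
  unfold mu2
  infer_instance

instance : StandardBorelSpace B.Y2 := inferInstance

instance instNull2 : NullSingletonClass B.mu2 := by
  unfold mu2
  infer_instance

theorem T2inv_T2 (y : B.Y2) : B.T2inv (B.T2 y) = y := by
  apply Prod.ext
  · change y.1 - B.one + B.one = y.1
    rw [sub_add_cancel]
  · change (B.psi (y.1 - B.one + B.one)).2 * ((B.psi y.1).2 * y.2) = y.2
    rw [sub_add_cancel, ← mul_assoc, Int.units_mul_self, one_mul]

theorem T2_T2inv (y : B.Y2) : B.T2 (B.T2inv y) = y := by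
  apply Prod.ext
  · change y.1 + B.one - B.one = y.1
    rw [add_sub_cancel_right]
  · change (B.psi (y.1 + B.one)).2 * ((B.psi (y.1 + B.one)).2 * y.2) = y.2
    rw [← mul_assoc, Int.units_mul_self, one_mul]

theorem measurable_T2 : Measurable B.T2 := by
  have h1 : Measurable fun y : B.Y2 => y.1 - B.one := (continuous_fst.sub
    continuous_const).measurable
  have h2 : Measurable fun y : B.Y2 => (B.psi y.1).2 * y.2 :=
    ((measurable_snd.comp (B.measurable_psi.comp measurable_fst))).mul measurable_snd
  exact h1.prodMk h2

theorem measurable_T2inv : Measurable B.T2inv := by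
  have h1 : Measurable fun y : B.Y2 => y.1 + B.one := (continuous_fst.add
    continuous_const).measurable
  have h2 : Measurable fun y : B.Y2 => (B.psi (y.1 + B.one)).2 * y.2 :=
    ((measurable_snd.comp (B.measurable_psi.comp h1))).mul measurable_snd
  exact h1.prodMk h2

/-- `T2` as a measurable equivalence. -/
noncomputable def T2e : B.Y2 ≃ᵐ B.Y2 where
  toFun := B.T2
  invFun := B.T2inv
  left_inv := B.T2inv_T2
  right_inv := B.T2_T2inv
  measurable_toFun := B.measurable_T2
  measurable_invFun := B.measurable_T2inv

theorem map_mul_mZ (u : ℤˣ) : Measure.map (fun v => u * v) mZ = mZ := by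
  unfold mZ
  rw [Measure.map_smul]
  congr 1
  exact map_mul_left_eq_self Measure.count u

theorem measurePreserving_T2 : MeasurePreserving B.T2 B.mu2 B.mu2 := by
  have h1 : MeasurePreserving (fun x : B.X => x - B.one) B.muX B.muX :=
    measurePreserving_sub_right B.muX B.one
  have h2 : Measurable (Function.uncurry fun (x : B.X) (t : ℤˣ) => (B.psi x).2 * t) :=
    ((measurable_snd.comp (B.measurable_psi.comp measurable_fst))).mul measurable_snd
  exact h1.skew_product h2 (Filter.Eventually.of_forall fun x => map_mul_mZ (B.psi x).2)

end Blk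

end P130
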