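import Vale.Agent.Lib.P130.Morse.Defs
import Vale.Agent.Lib.P130.KsetM

/-!
# P130 Morse: dilations of the circle
-/

open MeasureTheory Filter Topology
open scoped ENNReal ComplexConjugate

namespace P130

theorem measurePreserving_dil (M : ℕ) (hM : 0 < M) :
    MeasurePreserving (fun t : 𝕋 => M • t) mT mT :=
  measurePreserving_nsmul M hM

/-- the polynomial of `PT` -/
private noncomputable def pol (N : ℕ) (b : ℕ → ℤˣ) : Polynomial ℂ :=
  ∑ j ∈ Finset.range N, Polynomial.C ((b j : ℤ) : ℂ) * Polynomial.X ^ j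

private lemma pol_ne (N : ℕ) (hN : 0 < N) (b : ℕ → ℤˣ) : pol N b ≠ 0 := by
  intro h
  have h1 := congrArg (fun p => Polynomial.coeff p 0) h
  simp only [pol, Polynomial.finsetSum_coeff, Polynomial.coeff_C_mul, Polynomial.coeff_X_pow,
    Polynomial.coeff_zero] at h1
  rw [Finset.sum_eq_single 0] at h1
  · rcases Int.units_eq_one_or (b 0) with h2 | h2 <;> simp [h2] at h1
  · intro j _ hj
    simp [hj.symm]
  · intro h2
    exact absurd (Finset.mem_range.2 hN) h2

private lemma PT_eq (N : ℕ) (b : ℕ → ℤˣ) (t : 𝕋) :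
    PT N b t = (pol N b).eval ((AddCircle.toCircle t : Circle) : ℂ) := by
  unfold PT pol
  rw [Polynomial.eval_finsetSum]
  refine Finset.sum_congr rfl fun j _ => ?_
  rw [Polynomial.eval_mul, Polynomial.eval_C, Polynomial.eval_pow, Polynomial.eval_X,
    fourier_apply, natCast_zsmul, AddCircle.toCircle_nsmul, Circle.coe_pow]

private lemma PT_finite (N : ℕ) (hN : 0 < N) (b : ℕ → ℤˣ) : {t : 𝕋 | PT N b t = 0}.Finite := by
  have h1 : {t : 𝕋 | PT N b t = 0} ⊆
      (fun t : 𝕋 => ((AddCircle.toCircle t : Circle) : ℂ)) ⁻¹' {z | (pol N b).IsRoot z} := by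
    intro t ht
    have h2 : PT N b t = 0 := ht
    rw [PT_eq] at h2
    exact h2
  refine Set.Finite.subset (Set.Finite.preimage ?_ ?_) h1
  · intro x _ y _ hxy
    exact AddCircle.injective_toCircle one_ne_zero (Circle.coe_injective hxy)
  · exact Polynomial.finite_setOfPred_isRoot (pol_ne N hN b)

/-- a nonzero trigonometric polynomial vanishes only on a null set -/
theorem PT_ae_ne (N : ℕ) (hN : 0 < N) (b : ℕ → ℤˣ) (M : ℕ) (hM : 0 < M) :
    ∀ᵐ t ∂mT, PT N b (M • t) ≠ 0 := by
  have h1 : mT {t : 𝕋 | PT N b t = 0} = 0 := (PT_finite N hN b).measure_zero mT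
  have h2 : mT ((fun t : 𝕋 => M • t) ⁻¹' {t : 𝕋 | PT N b t = 0}) = 0 :=
    (measurePreserving_dil M hM).quasiMeasurePreserving.preimage_null h1
  rw [← compl_mem_ae_iff] at h2
  refine Filter.mem_of_superset h2 ?_
  intro t ht h3
  exact ht h3

end P130
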