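import Vale.Agent.Lib.P130.Morse.Hilb2
import Vale.Agent.Lib.P130.LevA

/-!
# P130 Morse: orthonormality of the level vectors
-/

open MeasureTheory Filter Topology
open scoped ENNReal ComplexConjugate

namespace P130

namespace Blk

variable (B : Blk)

theorem VecA_integral_mZ (f : ℤˣ → ℂ) : ∫ u, f u ∂mZ = (f 1 + f (-1)) / 2 := by
  unfold mZ
  have hu : (Finset.univ : Finset ℤˣ) = {1, -1} := by decide
  rw [integral_smul_measure, integral_count, hu, Finset.sum_pair (by decide)]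
  rw [ENNReal.toReal_inv, ENNReal.toReal_ofNat, Complex.real_smul]
  push_cast
  ring

theorem VecA_integral_chi (κ κ' : Bool) (a : ℤˣ) :
    ∫ u, chi κ (a * u) * chi κ' (a * u) ∂mZ = if κ = κ' then 1 else 0 := by
  rw [VecA_integral_mZ]
  rcases Int.units_eq_one_or a with h | h <;> cases κ <;> cases κ' <;> simp [chi, h]

/-- `⟨e2 κ n i, e2 κ' n i'⟩ = δ δ` (compare `Blk.inner_e` in `Lib/P130/LevA.lean`; `integral_lev_X`
is proved there) -/
theorem inner_e2 (κ κ' : Bool) (n i i' : ℕ) (hi : i < B.M n) :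
    (inner ℂ (B.e2 κ n i) (B.e2 κ' n i') : ℂ) = if i = i' ∧ κ = κ' then 1 else 0 := by
  rw [L2.inner_def]
  have h1 : ∫ y, (inner ℂ ((B.e2 κ n i : B.Y2 → ℂ) y) ((B.e2 κ' n i' : B.Y2 → ℂ) y) : ℂ) ∂B.mu2 =
      ∫ y, conj (B.E2 κ n i y) * B.E2 κ' n i' y ∂B.mu2 := by
    apply integral_congr_ae
    filter_upwards [B.coeFn_e2 κ n i, B.coeFn_e2 κ' n i'] with y e1 e2
    rw [e1, e2, RCLike.inner_apply']
  rw [h1]
  by_cases hii : i = i'
  · subst hii
    have h2 : ∀ y : B.Y2, conj (B.E2 κ n i y) * B.E2 κ' n i y =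
        (if B.idx n y.1 = i then ((B.M n : ℝ) : ℂ) else 0) *
          (chi κ ((B.A n i).2 * y.2) * chi κ' ((B.A n i).2 * y.2)) := by
      intro y
      unfold E2
      by_cases h : B.idx n y.1 = i
      · rw [if_pos h, if_pos h, if_pos h, map_mul, Complex.conj_ofReal, conj_chi]
        have h3 : ((Real.sqrt (B.M n) : ℝ) : ℂ) * (Real.sqrt (B.M n) : ℝ) = ((B.M n : ℝ) : ℂ) := by
          rw [← Complex.ofReal_mul, Real.mul_self_sqrt (Nat.cast_nonneg _)]
        rw [← h3]
        ring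
      · rw [if_neg h, if_neg h, if_neg h, map_zero, zero_mul, zero_mul]
    simp_rw [h2]
    unfold mu2
    rw [integral_prod_mul (fun x : B.X => (if B.idx n x = i then ((B.M n : ℝ) : ℂ) else 0))
      (fun u : ℤˣ => chi κ ((B.A n i).2 * u) * chi κ' ((B.A n i).2 * u)),
      B.integral_lev_X n i hi, one_mul, VecA_integral_chi]
    simp
  · rw [if_neg (fun h => hii h.1)]
    have h2 : ∀ y : B.Y2, conj (B.E2 κ n i y) * B.E2 κ' n i' y = 0 := by
      intro y
      unfold E2
      by_cases h : B.idx n y.1 = i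
      · rw [if_neg (show ¬ B.idx n y.1 = i' from fun h' => hii (h.symm.trans h')), mul_zero]
      · rw [if_neg h, map_zero, zero_mul]
    simp_rw [h2]
    exact integral_zero _ _

end Blk

end P130
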